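import Vale.Agent.Lib.P368.D3.Core3

/-! # The cost of an operator: total weight of an expansion into product operators -/

namespace Vale.Agent.Lib.P368

open Matrix Finset

set_option linter.unusedSectionVars false

/-- a gauge on a complex vector space: a family of sets `P c`, `c` real, stable under sums and
scalar multiples, increasing in `c` -/
structure Gauge (V : Type) [AddCommGroup V] [Module ℂ V] where
  P : ℝ → V → Prop
  add : ∀ {c c' : ℝ} {x y : V}, P c x → P c' y → P (c + c') (x + y)
  smul : ∀ {c : ℝ} {x : V} (a : ℂ), P c x → P (‖a‖ * c) (a • x)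
  mono : ∀ {c c' : ℝ} {x : V}, P c x → c ≤ c' → P c' x

variable {ι : Type} [Fintype ι] [DecidableEq ι]

/-- `Cost c Z`: the operator `Z` is a linear combination, with total weight at most `c`, of product
operators whose sites are the identity or rank-one contractions -/
inductive Cost : ℝ → Op ι → Prop
  | base (B : ι → M2) (hB : Site1 B) : Cost 1 (prodOp B)
  | add {c c' : ℝ} {Z Z' : Op ι} : Cost c Z → Cost c' Z' → Cost (c + c') (Z + Z')
  | smul {c : ℝ} {Z : Op ι} (a : ℂ) : Cost c Z → Cost (‖a‖ * c) (a • Z)
  | mono {c c' : ℝ} {Z : Op ι} : Cost c Z → c ≤ c' → Cost c' Z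

theorem Cost.nonneg {c : ℝ} {Z : Op ι} (h : Cost c Z) : 0 ≤ c := by
  induction h with
  | base B hB => exact zero_le_one
  | add _ _ ih ih' => exact add_nonneg ih ih'
  | smul a _ ih => exact mul_nonneg (norm_nonneg a) ih
  | mono _ hc ih => exact ih.trans hc

theorem Site1.mul {B B' : ι → M2} (hB : Site1 B) (hB' : Site1 B') :
    Site1 (fun j => B j * B' j) := by
  intro j
  rcases hB j with h | h
  · simp only [h, one_mul]; exact hB' j
  · rcases hB' j with h' | h'
    · simp only [h', mul_one]; exact Or.inr h
    · exact Or.inr (h.mul h')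

theorem Cost.one : Cost 1 (1 : Op ι) := by
  have h := Cost.base (ι := ι) (fun _ => (1 : M2)) (fun _ => Or.inl rfl)
  rwa [prodOp_one] at h

/-- double induction; `prodOp_mul`, `Site1.mul` -/
theorem Cost.mul {c c' : ℝ} {Z Z' : Op ι} (h : Cost c Z) (h' : Cost c' Z') :
    Cost (c * c') (Z * Z') := by
  induction h with
  | base B hB =>
    rw [one_mul]
    induction h' with
    | base B' hB' =>
      rw [prodOp_mul]
      exact Cost.base _ (hB.mul hB')
    | add _ _ ih ih' =>
      rw [Matrix.mul_add]
      exact Cost.add ih ih'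
    | smul a _ ih =>
      rw [Matrix.mul_smul]
      exact Cost.smul a ih
    | mono _ hc ih => exact Cost.mono ih hc
  | add _ _ ih ih' =>
    rw [Matrix.add_mul, add_mul]
    exact Cost.add ih ih'
  | smul a _ ih =>
    rw [Matrix.smul_mul, mul_assoc]
    exact Cost.smul a ih
  | mono _ hc ih =>
    exact Cost.mono ih (mul_le_mul_of_nonneg_right hc h'.nonneg)

/-- induction; `layer1_bound_strong`, `conjBy_add`, `conjBy_smul`, `Phi_add`, `Phi_smul` -/
theorem Cost.bound {c : ℝ} {Z : Op ι} (h : Cost c Z) (inp : ι → Bool)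
    (l₁ : List (Finset ι × (ι → M2))) (h₁ : rlistValid l₁) :
    ‖Phi inp (conjBy l₁ Z)‖ ≤ c * gam ^ numInp inp := by
  have hg : 0 ≤ gam ^ numInp inp := pow_nonneg gam_pos.le _
  induction h with
  | base B hB =>
    rw [one_mul]
    exact layer1_bound_strong inp B hB l₁ h₁
  | add _ _ ih ih' =>
    rw [conjBy_add, Phi_add, add_mul]
    exact (norm_add_le _ _).trans (add_le_add ih ih')
  | smul a _ ih =>
    rw [conjBy_smul, Phi_smul, norm_mul, mul_assoc]
    exact mul_le_mul_of_nonneg_left ih (norm_nonneg a)
  | mono _ hc ih =>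
    exact ih.trans (mul_le_mul_of_nonneg_right hc hg)

/-- the gauge given by the cost -/
def costGauge : Gauge (Op ι) where
  P := Cost
  add := Cost.add
  smul := Cost.smul
  mono := Cost.mono

/-- the gauge of the conjugated operator -/
noncomputable def Gauge.comap (𝔊 : Gauge (Op ι)) (l : List (Finset ι × (ι → M2))) :
    Gauge (Op ι) where
  P := fun c Y => 𝔊.P c (conjBy l Y)
  add := fun h h' => by rw [conjBy_add]; exact 𝔊.add h h'
  smul := fun a h => by rw [conjBy_smul]; exact 𝔊.smul a h
  mono := fun h hc => 𝔊.mono h hc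

end Vale.Agent.Lib.P368
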