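import Vale.Agent.Lib.P368.D4.OpNorm
import Vale.Agent.Lib.P368.D4.Cost

/-! # Operators that, conjugated by the layer `ρ₂`, are close to an operator of bounded cost -/

namespace Vale.Agent.Lib.P368

open Matrix Finset
open scoped Matrix.Norms.L2Operator

set_option linter.unusedSectionVars false

variable {ι : Type} [Fintype ι] [DecidableEq ι]

/-- `conjBy ρ₂ Y` is within `e - 1` (operator norm) of an operator of cost `c` -/
def Apx (ρ₂ : List (Finset ι × (ι → M2))) (e c : ℝ) (Y : Op ι) : Prop :=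
  ∃ Z : Op ι, ‖conjBy ρ₂ Y - Z‖ ≤ e - 1 ∧ Cost c Z

theorem Apx.one_le {ρ₂ : List (Finset ι × (ι → M2))} {e c : ℝ} {Y : Op ι} (h : Apx ρ₂ e c Y) :
    1 ≤ e := by
  obtain ⟨Z, hZ, -⟩ := h
  linarith [norm_nonneg (conjBy ρ₂ Y - Z)]

theorem Apx.mono {ρ₂ : List (Finset ι × (ι → M2))} {e e' c c' : ℝ} {Y : Op ι}
    (h : Apx ρ₂ e c Y) (he : e ≤ e') (hc : c ≤ c') : Apx ρ₂ e' c' Y := by
  obtain ⟨Z, hZ, hc'⟩ := h
  exact ⟨Z, by linarith, hc'.mono hc⟩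

/-- `cY * cY' - Z * Z' = (cY - Z) * cY' + Z * (cY' - Z')`, `‖cY'‖ ≤ 1`, `‖Z‖ ≤ e` -/
theorem Apx.mul {ρ₂ : List (Finset ι × (ι → M2))} (hρ₂ : ∀ r ∈ ρ₂, ReflValid r) {e e' c c' : ℝ}
    {Y Y' : Op ι} (hY : ‖Y‖ ≤ 1) (hY' : ‖Y'‖ ≤ 1) (h : Apx ρ₂ e c Y) (h' : Apx ρ₂ e' c' Y') :
    Apx ρ₂ (e * e') (c * c') (Y * Y') := by
  obtain ⟨Z, hZ, hcZ⟩ := h
  obtain ⟨Z', hZ', hcZ'⟩ := h'
  refine ⟨Z * Z', ?_, hcZ.mul hcZ'⟩
  have h1 : ‖conjBy ρ₂ Y‖ ≤ 1 := (opn_conjBy_le ρ₂ hρ₂ Y).trans hY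
  have h2 : ‖conjBy ρ₂ Y'‖ ≤ 1 := (opn_conjBy_le ρ₂ hρ₂ Y').trans hY'
  have hZn : ‖Z‖ ≤ e := by
    have h3 : Z = conjBy ρ₂ Y - (conjBy ρ₂ Y - Z) := by abel
    calc ‖Z‖ = ‖conjBy ρ₂ Y - (conjBy ρ₂ Y - Z)‖ := by rw [← h3]
      _ ≤ ‖conjBy ρ₂ Y‖ + ‖conjBy ρ₂ Y - Z‖ := norm_sub_le _ _
      _ ≤ e := by linarith
  have hsplit : conjBy ρ₂ (Y * Y') - Z * Z'
      = (conjBy ρ₂ Y - Z) * conjBy ρ₂ Y' + Z * (conjBy ρ₂ Y' - Z') := by
    rw [conjBy_mul ρ₂ hρ₂, sub_mul, mul_sub]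
    abel
  have ha : ‖(conjBy ρ₂ Y - Z) * conjBy ρ₂ Y'‖ ≤ (e - 1) * 1 :=
    (norm_mul_le _ _).trans
      (mul_le_mul hZ h2 (norm_nonneg _) (le_trans (norm_nonneg _) hZ))
  have hb : ‖Z * (conjBy ρ₂ Y' - Z')‖ ≤ e * (e' - 1) :=
    (norm_mul_le _ _).trans
      (mul_le_mul hZn hZ' (norm_nonneg _) (le_trans (norm_nonneg _) hZn))
  rw [hsplit]
  calc ‖(conjBy ρ₂ Y - Z) * conjBy ρ₂ Y' + Z * (conjBy ρ₂ Y' - Z')‖
      ≤ ‖(conjBy ρ₂ Y - Z) * conjBy ρ₂ Y'‖ + ‖Z * (conjBy ρ₂ Y' - Z')‖ := norm_add_le _ _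
    _ ≤ (e - 1) * 1 + e * (e' - 1) := add_le_add ha hb
    _ = e * e' - 1 := by ring

/-- `1 - 2 Y` -/
theorem Apx.one_sub_two {ρ₂ : List (Finset ι × (ι → M2))} (hρ₂ : ∀ r ∈ ρ₂, ReflValid r)
    {e c : ℝ} {Y : Op ι} (h : Apx ρ₂ e c Y) :
    Apx ρ₂ (2 * e - 1) (1 + 2 * c) (1 - (2 : ℂ) • Y) := by
  obtain ⟨Z, hZ, hcZ⟩ := h
  refine ⟨1 + (-2 : ℂ) • Z, ?_, ?_⟩
  · have hsplit : conjBy ρ₂ (1 - (2 : ℂ) • Y) - (1 + (-2 : ℂ) • Z)
        = (-2 : ℂ) • (conjBy ρ₂ Y - Z) := by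
      rw [conjBy_sub, conjBy_one ρ₂ hρ₂, conjBy_smul]
      module
    rw [hsplit, norm_smul]
    have h2 : ‖(-2 : ℂ)‖ = 2 := by simp
    rw [h2]
    linarith
  · have h1 := Cost.add Cost.one (Cost.smul (-2 : ℂ) hcZ)
    have h2 : ‖(-2 : ℂ)‖ = 2 := by simp
    rw [h2] at h1
    exact h1

/-- the resulting bound on the signed functional -/
theorem Apx.bound {ρ₂ : List (Finset ι × (ι → M2))} {e c : ℝ} {Y : Op ι} (h : Apx ρ₂ e c Y)
    (inp : ι → Bool) (l₁ : List (Finset ι × (ι → M2))) (h₁ : rlistValid l₁) :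
    ‖Phi inp (conjBy l₁ (conjBy ρ₂ Y))‖ ≤ (e - 1) + c * gam ^ numInp inp := by
  obtain ⟨Z, hZ, hcZ⟩ := h
  have hsplit : conjBy l₁ (conjBy ρ₂ Y) = conjBy l₁ (conjBy ρ₂ Y - Z) + conjBy l₁ Z := by
    rw [conjBy_sub]
    abel
  rw [hsplit, Phi_add]
  have h1 : ‖Phi inp (conjBy l₁ (conjBy ρ₂ Y - Z))‖ ≤ e - 1 :=
    ((norm_Phi_le_opn inp _).trans (opn_conjBy_le l₁ h₁.1 _)).trans hZ
  have h2 := hcZ.bound inp l₁ h₁
  exact (norm_add_le _ _).trans (add_le_add h1 h2)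

/-- a product of reflections, each of which is well approximated -/
theorem Apx.rlist {ρ₂ : List (Finset ι × (ι → M2))} (hρ₂ : ∀ r ∈ ρ₂, ReflValid r) (e : ℝ)
    (he : 1 ≤ e) (cf : Finset ι × (ι → M2) → ℝ) (l : List (Finset ι × (ι → M2)))
    (hl : ∀ r ∈ l, ReflValid r) (h : ∀ r ∈ l, Apx ρ₂ e (cf r) (reflOp r)) :
    Apx ρ₂ (e ^ l.length) ((l.map cf).prod) (rlistOp l) := by
  induction l with
  | nil =>
    refine ⟨1, ?_, ?_⟩
    · have : rlistOp ([] : List (Finset ι × (ι → M2))) = 1 := by simp [rlistOp]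
      rw [this, conjBy_one ρ₂ hρ₂]
      simp
    · simpa using (Cost.one : Cost 1 (1 : Op ι))
  | cons r l ih =>
    have hl' : ∀ r ∈ l, ReflValid r := fun s hs => hl s (List.mem_cons_of_mem _ hs)
    have h' : ∀ r ∈ l, Apx ρ₂ e (cf r) (reflOp r) := fun s hs => h s (List.mem_cons_of_mem _ hs)
    have h1 := Apx.mul hρ₂ (opn_reflOp_le (hl r List.mem_cons_self)) (opn_rlistOp_le l hl')
      (h r List.mem_cons_self) (ih hl' h')
    have h2 : rlistOp (r :: l) = reflOp r * rlistOp l := by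
      simp [rlistOp]
    rw [h2, List.length_cons, pow_succ', List.map_cons, List.prod_cons]
    exact h1

/-- the same for the adjoint (`(rlistOp l)ᴴ = rlistOp l.reverse` since reflections are Hermitian;
length and product do not change under `reverse`) -/
theorem Apx.rlist_adj {ρ₂ : List (Finset ι × (ι → M2))} (hρ₂ : ∀ r ∈ ρ₂, ReflValid r) (e : ℝ)
    (he : 1 ≤ e) (cf : Finset ι × (ι → M2) → ℝ) (l : List (Finset ι × (ι → M2)))
    (hl : ∀ r ∈ l, ReflValid r) (h : ∀ r ∈ l, Apx ρ₂ e (cf r) (reflOp r)) :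
    Apx ρ₂ (e ^ l.length) ((l.map cf).prod) (rlistOp l)ᴴ := by
  have hrev : ∀ l : List (Finset ι × (ι → M2)), (∀ r ∈ l, ReflValid r) →
      (rlistOp l)ᴴ = rlistOp l.reverse := by
    intro l
    induction l with
    | nil => intro _; simp [rlistOp]
    | cons r l ih =>
      intro hl
      have hl' : ∀ r ∈ l, ReflValid r := fun s hs => hl s (List.mem_cons_of_mem _ hs)
      have h2 : rlistOp (r :: l) = reflOp r * rlistOp l := by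
        simp [rlistOp]
      have h3 : rlistOp (l.reverse ++ [r]) = rlistOp l.reverse * reflOp r := by
        simp [rlistOp]
      rw [h2, Matrix.conjTranspose_mul, ih hl', reflOp_herm (hl r List.mem_cons_self),
        List.reverse_cons, h3]
  rw [hrev l hl]
  have h1 := Apx.rlist hρ₂ e he cf l.reverse (fun r hr => hl r (List.mem_reverse.1 hr))
    (fun r hr => h r (List.mem_reverse.1 hr))
  rw [List.length_reverse, List.map_reverse, List.prod_reverse] at h1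
  exact h1

end Vale.Agent.Lib.P368
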