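import Vale.Agent.Lib.P368.D4.Cost
import Vale.Agent.Lib.P368.D3.ChebAnd

/-! # The Chebyshev recursion for a gauge (abstract form) -/

namespace Vale.Agent.Lib.P368

open Finset

/-- the affine function of the number of passed tests that is `1 + 1 / |G|` when all tests pass and
lies in `[-1, 1]` otherwise -/
noncomputable def ell {Ω κ : Type} (pass : κ → Ω → ℝ) (G : Finset κ) (ω : Ω) : ℝ :=
  (2 * ∑ i ∈ G, pass i ω - ((G.card : ℝ) - 1)) / (G.card : ℝ)

theorem ell_all_pass {Ω κ : Type} (pass : κ → Ω → ℝ) (G : Finset κ) (hG : G.Nonempty) (ω : Ω)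
    (h : ∀ i ∈ G, pass i ω = 1) : ell pass G ω = 1 + 1 / (G.card : ℝ) := by
  have hM : 0 < G.card := Finset.card_pos.mpr hG
  have hMr : (0 : ℝ) < (G.card : ℝ) := by exact_mod_cast hM
  have h2 : ∑ i ∈ G, pass i ω = (G.card : ℝ) := by
    rw [Finset.sum_congr rfl h]
    simp
  unfold ell
  rw [h2]
  field_simp
  ring

theorem ell_abs_le {Ω κ : Type} (pass : κ → Ω → ℝ) (hpass : ∀ i ω, pass i ω = 0 ∨ pass i ω = 1)
    (G : Finset κ) (ω : Ω) (h : ∃ i ∈ G, pass i ω = 0) : |ell pass G ω| ≤ 1 := by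
  classical
  obtain ⟨i, hi, hi0⟩ := h
  have hM : 0 < G.card := Finset.card_pos.mpr ⟨i, hi⟩
  have hMr : (0 : ℝ) < (G.card : ℝ) := by exact_mod_cast hM
  have hlo : 0 ≤ ∑ j ∈ G, pass j ω := Finset.sum_nonneg fun j _ => by
    rcases hpass j ω with h | h <;> simp [h]
  have hhi : ∑ j ∈ G, pass j ω ≤ (G.card : ℝ) - 1 := by
    rw [← Finset.add_sum_erase G (fun j => pass j ω) hi, hi0, zero_add]
    have h5 : ∑ j ∈ G.erase i, pass j ω ≤ ((G.erase i).card : ℝ) * 1 := by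
      rw [← nsmul_eq_mul]
      refine Finset.sum_le_card_nsmul _ _ _ fun j _ => ?_
      rcases hpass j ω with h | h <;> simp [h]
    rw [Finset.card_erase_of_mem hi, mul_one, Nat.cast_sub hM, Nat.cast_one] at h5
    exact h5
  unfold ell
  rw [abs_le]
  constructor
  · rw [le_div_iff₀ hMr]
    linarith
  · rw [div_le_iff₀ hMr]
    linarith

/-- the weighted vector sum -/
noncomputable def cgLL {V : Type} [AddCommGroup V] [Module ℂ V] {Ω : Type} [Fintype Ω]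
    (w : Ω → V) (fr : Ω → ℝ) (f : Ω → ℝ) : V :=
  ∑ ω, ((fr ω * f ω : ℝ) : ℂ) • w ω

theorem cgLL_sub {V : Type} [AddCommGroup V] [Module ℂ V] {Ω : Type} [Fintype Ω]
    (w : Ω → V) (fr f f' : Ω → ℝ) :
    cgLL w fr (fun ω => f ω - f' ω) = cgLL w fr f - cgLL w fr f' := by
  unfold cgLL
  rw [← Finset.sum_sub_distrib]
  refine Finset.sum_congr rfl fun ω _ => ?_
  rw [← sub_smul]
  congr 1
  push_cast
  ring

theorem cgLL_smul {V : Type} [AddCommGroup V] [Module ℂ V] {Ω : Type} [Fintype Ω]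
    (w : Ω → V) (fr f : Ω → ℝ) (c : ℝ) :
    cgLL w fr (fun ω => c * f ω) = (c : ℂ) • cgLL w fr f := by
  unfold cgLL
  rw [Finset.smul_sum]
  refine Finset.sum_congr rfl fun ω _ => ?_
  rw [smul_smul]
  congr 1
  push_cast
  ring

theorem cgLL_sum {V : Type} [AddCommGroup V] [Module ℂ V] {Ω κ : Type} [Fintype Ω]
    (w : Ω → V) (fr : Ω → ℝ) (s : Finset κ) (F : κ → Ω → ℝ) :
    cgLL w fr (fun ω => ∑ i ∈ s, F i ω) = ∑ i ∈ s, cgLL w fr (F i) := by
  unfold cgLL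
  rw [Finset.sum_comm]
  refine Finset.sum_congr rfl fun ω _ => ?_
  rw [← Finset.sum_smul]
  congr 1
  rw [Finset.mul_sum]
  push_cast
  rfl

theorem Gauge.sum_card {V : Type} [AddCommGroup V] [Module ℂ V] (𝔊 : Gauge V)
    (h0 : 𝔊.P 0 0) {κ : Type} (s : Finset κ) (x : κ → V) (C : ℝ)
    (h : ∀ i ∈ s, 𝔊.P C (x i)) : 𝔊.P ((s.card : ℝ) * C) (∑ i ∈ s, x i) := by
  classical
  induction s using Finset.induction_on with
  | empty => simpa using h0
  | insert a s ha ih =>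
    rw [Finset.sum_insert ha, Finset.card_insert_of_notMem ha]
    have h1 := h a (Finset.mem_insert_self a s)
    have h2 := ih fun i hi => h i (Finset.mem_insert_of_mem hi)
    have h3 := 𝔊.add h1 h2
    refine 𝔊.mono h3 (le_of_eq ?_)
    push_cast
    ring

theorem Gauge.sub' {V : Type} [AddCommGroup V] [Module ℂ V] (𝔊 : Gauge V) {c c' : ℝ} {x y : V}
    (hx : 𝔊.P c x) (hy : 𝔊.P c' y) : 𝔊.P (c + c') (x - y) := by
  have h1 := 𝔊.smul (-1 : ℂ) hy
  have h2 := 𝔊.add hx h1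
  have e1 : x + (-1 : ℂ) • y = x - y := by
    rw [neg_smul, one_smul, sub_eq_add_neg]
  rw [e1] at h2
  refine 𝔊.mono h2 (le_of_eq ?_)
  simp

theorem cgLL_step {V : Type} [AddCommGroup V] [Module ℂ V] (𝔊 : Gauge V) (h00 : 𝔊.P 0 0)
    {Ω κ : Type} [Fintype Ω] [DecidableEq κ] (w : Ω → V) (fr : Ω → ℝ)
    (pass : κ → Ω → ℝ) (hpass : ∀ i ω, pass i ω = 0 ∨ pass i ω = 1)
    (G : Finset κ) (hM : 0 < G.card) (b g : ℝ) (hb : 1 ≤ b) (hg : 0 ≤ g) (f : Ω → ℝ) (c : ℝ)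
    (hc : 0 ≤ c)
    (hf : ∀ T ⊆ G, 𝔊.P (c * b ^ T.card * g) (cgLL w fr (fun ω => (∏ i ∈ T, pass i ω) * f ω))) :
    ∀ T ⊆ G, 𝔊.P ((2 * b + 1) * c * b ^ T.card * g)
      (cgLL w fr (fun ω => (∏ i ∈ T, pass i ω) * (ell pass G ω * f ω))) := by
  intro T hTG
  have hMr : (0 : ℝ) < (G.card : ℝ) := by exact_mod_cast hM
  have hM1 : (1 : ℝ) ≤ (G.card : ℝ) := by exact_mod_cast hM
  have hb0 : 0 ≤ b := le_trans zero_le_one hb
  have hfun : (fun ω => (∏ i ∈ T, pass i ω) * (ell pass G ω * f ω))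
      = fun ω => (2 / (G.card : ℝ)) * (∑ i ∈ G, (∏ j ∈ insert i T, pass j ω) * f ω)
          - (((G.card : ℝ) - 1) / (G.card : ℝ)) * ((∏ i ∈ T, pass i ω) * f ω) := by
    funext ω
    have h1 : ∑ i ∈ G, (∏ j ∈ insert i T, pass j ω) * f ω
        = (∏ j ∈ T, pass j ω) * f ω * ∑ i ∈ G, pass i ω := by
      rw [Finset.mul_sum]
      refine Finset.sum_congr rfl fun i _ => ?_
      rw [ca_prod_insert pass hpass]
      ring
    rw [h1]
    unfold ell
    field_simp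
  rw [hfun, cgLL_sub, cgLL_smul, cgLL_smul, cgLL_sum]
  have hb1 : 𝔊.P ((G.card : ℝ) * (c * b ^ (T.card + 1) * g))
      (∑ i ∈ G, cgLL w fr (fun ω => (∏ j ∈ insert i T, pass j ω) * f ω)) := by
    refine 𝔊.sum_card h00 G _ _ fun i hi => ?_
    refine 𝔊.mono (hf (insert i T) (Finset.insert_subset hi hTG)) ?_
    have h9 : b ^ (insert i T).card ≤ b ^ (T.card + 1) :=
      pow_le_pow_right₀ hb (Finset.card_insert_le i T)
    exact mul_le_mul_of_nonneg_right (mul_le_mul_of_nonneg_left h9 hc) hg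
  have hb2 := hf T hTG
  have hn1 : ‖((2 / (G.card : ℝ) : ℝ) : ℂ)‖ = 2 / (G.card : ℝ) := by
    rw [Complex.norm_real, Real.norm_eq_abs, abs_of_nonneg (by positivity)]
  have hq0 : 0 ≤ ((G.card : ℝ) - 1) / (G.card : ℝ) := div_nonneg (by linarith) hMr.le
  have hq1 : ((G.card : ℝ) - 1) / (G.card : ℝ) ≤ 1 := by
    rw [div_le_one hMr]
    linarith
  have hn2 : ‖((((G.card : ℝ) - 1) / (G.card : ℝ) : ℝ) : ℂ)‖ = ((G.card : ℝ) - 1) / (G.card : ℝ) := by
    rw [Complex.norm_real, Real.norm_eq_abs, abs_of_nonneg hq0]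
  have hX : 0 ≤ c * b ^ T.card * g := by positivity
  have hs1 := 𝔊.smul ((2 / (G.card : ℝ) : ℝ) : ℂ) hb1
  have hs2 := 𝔊.smul ((((G.card : ℝ) - 1) / (G.card : ℝ) : ℝ) : ℂ) hb2
  rw [hn1] at hs1
  rw [hn2] at hs2
  refine 𝔊.mono (𝔊.sub' hs1 hs2) ?_
  calc (2 / (G.card : ℝ)) * ((G.card : ℝ) * (c * b ^ (T.card + 1) * g))
        + ((G.card : ℝ) - 1) / (G.card : ℝ) * (c * b ^ T.card * g)
      ≤ (2 / (G.card : ℝ)) * ((G.card : ℝ) * (c * b ^ (T.card + 1) * g))
        + 1 * (c * b ^ T.card * g) :=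
        add_le_add le_rfl (mul_le_mul_of_nonneg_right hq1 hX)
    _ = (2 * b + 1) * c * b ^ T.card * g := by
        rw [pow_succ]
        field_simp

/-- If the `fr * ∏_{i ∈ T} pass i`-weighted sums of the vectors `w ω` have gauge `b ^ |T| * g` for
all `T ⊆ G`, then the `fr * T_k (ell)`-weighted sum has gauge `(4 b + 3) ^ k * g`.

Plan (compare the proof of `cheb_and` in `D3/ChebAnd.lean`, which is the scalar case `b = 9`):
prove by two-step induction on `k`, for all `T ⊆ G` simultaneously, that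
`∑ ω, (fr ω * (∏ i ∈ T, pass i ω) * cheb (ell pass G ω) k) • w ω` has gauge
`(4 b + 3) ^ k * b ^ |T| * g`.  Multiplication by `ell`:
`h_T * ell * f = (2 / M) * ∑ i ∈ G, h_(insert i T) * f - ((M - 1) / M) * h_T * f`, which costs
the factor `2 b + 1`; and `2 (2 b + 1) c + 1 ≤ c ^ 2` for `c = 4 b + 3`. -/
theorem cheb_gauge {V : Type} [AddCommGroup V] [Module ℂ V] (𝔊 : Gauge V) {Ω κ : Type}
    [Fintype Ω] [DecidableEq κ] (w : Ω → V) (fr : Ω → ℝ) (pass : κ → Ω → ℝ)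
    (hpass : ∀ i ω, pass i ω = 0 ∨ pass i ω = 1) (G : Finset κ) (hG : G.Nonempty) (b g : ℝ)
    (hb : 1 ≤ b) (hg : 0 ≤ g)
    (hT : ∀ T ⊆ G, 𝔊.P (b ^ T.card * g) (∑ ω, ((fr ω * ∏ i ∈ T, pass i ω : ℝ) : ℂ) • w ω))
    (k : ℕ) :
    𝔊.P ((4 * b + 3) ^ k * g) (∑ ω, ((fr ω * cheb (ell pass G ω) k : ℝ) : ℂ) • w ω) := by
  have hM : 0 < G.card := Finset.card_pos.mpr hG
  have hb0 : 0 ≤ b := le_trans zero_le_one hb
  have hc0 : (0 : ℝ) ≤ 4 * b + 3 := by linarith
  have h00 : 𝔊.P 0 0 := by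
    have h1 := 𝔊.smul (0 : ℂ) (hT ∅ (Finset.empty_subset G))
    simpa using h1
  have hind : ∀ k : ℕ,
      (∀ T ⊆ G, 𝔊.P ((4 * b + 3) ^ k * b ^ T.card * g)
        (cgLL w fr (fun ω => (∏ i ∈ T, pass i ω) * cheb (ell pass G ω) k))) ∧
      (∀ T ⊆ G, 𝔊.P ((4 * b + 3) ^ (k + 1) * b ^ T.card * g)
        (cgLL w fr (fun ω => (∏ i ∈ T, pass i ω) * cheb (ell pass G ω) (k + 1)))) := by
    intro k
    induction k with
    | zero =>
      have h0 : ∀ T ⊆ G, 𝔊.P (1 * b ^ T.card * g)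
          (cgLL w fr (fun ω => (∏ i ∈ T, pass i ω) * (fun _ => (1 : ℝ)) ω)) := by
        intro T hTG
        have := hT T hTG
        simpa [cgLL] using this
      refine ⟨?_, ?_⟩
      · intro T hTG
        have := h0 T hTG
        simpa [cheb_zero] using this
      · intro T hTG
        have := cgLL_step 𝔊 h00 w fr pass hpass G hM b g hb hg (fun _ => 1) 1 zero_le_one h0 T hTG
        have hX : 0 ≤ b ^ T.card * g := by positivity
        simp only [mul_one, zero_add, cheb_one, pow_one] at this ⊢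
        refine 𝔊.mono this ?_
        nlinarith
    | succ k ih =>
      refine ⟨ih.2, ?_⟩
      intro T hTG
      have hs := cgLL_step 𝔊 h00 w fr pass hpass G hM b g hb hg
        (fun ω => cheb (ell pass G ω) (k + 1))
        ((4 * b + 3) ^ (k + 1)) (by positivity) ih.2 T hTG
      have h0 := ih.1 T hTG
      have hfun : (fun ω => (∏ i ∈ T, pass i ω) * cheb (ell pass G ω) (k + 1 + 1))
          = fun ω => 2 * ((∏ i ∈ T, pass i ω) *
              (ell pass G ω * cheb (ell pass G ω) (k + 1)))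
            - (∏ i ∈ T, pass i ω) * cheb (ell pass G ω) k := by
        funext ω
        rw [cheb_succ_succ]
        ring
      rw [hfun, cgLL_sub, cgLL_smul]
      have hX : 0 ≤ (4 * b + 3) ^ k * b ^ T.card * g := by positivity
      have hn : ‖((2 : ℝ) : ℂ)‖ = 2 := by
        rw [Complex.norm_real]
        norm_num
      have hs2 := 𝔊.smul ((2 : ℝ) : ℂ) hs
      rw [hn] at hs2
      refine 𝔊.mono (𝔊.sub' hs2 h0) ?_
      calc 2 * ((2 * b + 1) * (4 * b + 3) ^ (k + 1) * b ^ T.card * g)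
            + (4 * b + 3) ^ k * b ^ T.card * g
          = (2 * (2 * b + 1) * (4 * b + 3) + 1) * ((4 * b + 3) ^ k * b ^ T.card * g) := by
            rw [pow_succ]
            ring
        _ ≤ ((4 * b + 3) * (4 * b + 3)) * ((4 * b + 3) ^ k * b ^ T.card * g) :=
            mul_le_mul_of_nonneg_right (by nlinarith) hX
        _ = (4 * b + 3) ^ (k + 1 + 1) * b ^ T.card * g := by
            rw [pow_succ, pow_succ]
            ring
  have hc := (hind k).1 ∅ (Finset.empty_subset G)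
  simp only [Finset.prod_empty, one_mul, Finset.card_empty, pow_zero, mul_one] at hc
  exact hc

end Vale.Agent.Lib.P368
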