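import Mathlib

/-! # Scalar estimate for the accumulated errors -/

namespace Vale.Agent.Lib.P368

/-- With `η = 4 / 2 ^ L`, `j = 2 N + 2` and `j η ≤ 1 / 2`:
`(1 + η) ^ j ≤ 1 / (1 - η) ^ j ≤ 1 / (1 - j η) ≤ 1 + 2 j η` (Bernoulli `one_add_mul_le_pow` for
`-η`), so `δ = e - 1 ≤ 16 (N + 1) / 2 ^ L ≤ 1` and
`(1 + 2 δ) ^ 2 (1 + δ) - 1 = 5 δ + 8 δ ^ 2 + 4 δ ^ 3 ≤ 17 δ`. -/
theorem err4 (N L : ℕ) (h : 16 * (N + 1) ≤ 2 ^ L) (e : ℝ)
    (he : e = (1 + 4 / 2 ^ L) ^ (2 * N + 2)) :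
    (2 * e - 1) * e * (2 * e - 1) - 1 ≤ 272 * ((N : ℝ) + 1) / 2 ^ L := by
  have hL : (0 : ℝ) < 2 ^ L := by positivity
  have hR : 16 * ((N : ℝ) + 1) ≤ 2 ^ L := by exact_mod_cast h
  set η : ℝ := 4 / 2 ^ L with hη
  have hη0 : 0 ≤ η := by positivity
  set x : ℝ := ((2 * N + 2 : ℕ) : ℝ) * η with hx
  have hxe : x = 8 * ((N : ℝ) + 1) / 2 ^ L := by
    rw [hx, hη]; push_cast; field_simp; ring
  have hx0 : 0 ≤ x := by rw [hx]; positivity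
  have hx1 : x ≤ 1 / 2 := by
    rw [hxe, div_le_iff₀ hL]; linarith
  have hη1 : η ≤ 1 / 2 := by
    have : η ≤ x := by
      rw [hx]
      have : (1 : ℝ) ≤ ((2 * N + 2 : ℕ) : ℝ) := by push_cast; linarith [Nat.cast_nonneg (α := ℝ) N]
      nlinarith
    linarith
  -- Bernoulli
  have hb : 1 + ((2 * N + 2 : ℕ) : ℝ) * (-η) ≤ (1 + -η) ^ (2 * N + 2) :=
    one_add_mul_le_pow (by linarith) _
  have hb' : 1 - x ≤ (1 - η) ^ (2 * N + 2) := by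
    have : 1 + ((2 * N + 2 : ℕ) : ℝ) * (-η) = 1 - x := by rw [hx]; ring
    rw [this] at hb
    simpa [sub_eq_add_neg] using hb
  have hprod : e * (1 - η) ^ (2 * N + 2) ≤ 1 := by
    rw [he, ← mul_pow]
    apply pow_le_one₀
    · nlinarith
    · nlinarith
  have he1 : 1 ≤ e := by
    rw [he]; exact one_le_pow₀ (by linarith)
  have hle : e * (1 - x) ≤ 1 := by
    calc e * (1 - x) ≤ e * (1 - η) ^ (2 * N + 2) :=
          mul_le_mul_of_nonneg_left hb' (by linarith)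
      _ ≤ 1 := hprod
  have hd : e - 1 ≤ 2 * x := by
    -- e ≤ 1/(1-x) ≤ 1 + 2x
    have h1 : (1 + 2 * x) * (1 - x) ≥ 1 := by nlinarith
    have h2 : 0 < 1 - x := by linarith
    by_contra hc
    push Not at hc
    have : (1 + 2 * x) * (1 - x) < e * (1 - x) := mul_lt_mul_of_pos_right (by linarith) h2
    linarith
  set δ : ℝ := e - 1 with hδ
  have hδ0 : 0 ≤ δ := by linarith
  have hδ1 : δ ≤ 1 := by linarith
  have hee : e = 1 + δ := by rw [hδ]; ring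
  have hfin : (2 * e - 1) * e * (2 * e - 1) - 1 ≤ 17 * δ := by
    rw [hee]
    nlinarith [mul_nonneg hδ0 hδ0, mul_nonneg hδ0 (sub_nonneg.2 hδ1),
      mul_nonneg (mul_nonneg hδ0 hδ0) (sub_nonneg.2 hδ1)]
  calc _ ≤ 17 * δ := hfin
    _ ≤ 17 * (2 * x) := by linarith
    _ = 272 * ((N : ℝ) + 1) / 2 ^ L := by rw [hxe]; ring

end Vale.Agent.Lib.P368
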