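import Vale.Agent.Lib.P368.BlockBound

/-! # The choice of the parameters at depth four -/

namespace Vale.Agent.Lib.P368

/-- the exponent (base `9`) of the cost, as a function of the number `N` of qubits and of the
parameters `t`, `L` -/
def expoN (N t L : ℕ) : ℕ :=
  4 * (((2 * L + 1) * N) / t) + (t * t + 4) * ((Nat.sqrt N + 1) * L)

theorem log_gam : Real.log gam = -(1 / 4) * Real.log 2 := by
  unfold gam
  rw [Real.log_rpow (by norm_num), one_div (2 : ℝ), Real.log_inv]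
  ring

theorem log_nine_le : Real.log 9 ≤ 16 / 5 * Real.log 2 := by
  have h : Real.log ((9 : ℝ) ^ 5) ≤ Real.log ((2 : ℝ) ^ 16) :=
    Real.log_le_log (by positivity) (by norm_num)
  rw [Real.log_pow, Real.log_pow] at h
  push_cast at h
  linarith

theorem expoN_le (N t L : ℕ) (x : ℝ) (hx1 : 1 ≤ x) (hx6 : x ^ 6 = N) (ht1 : x ≤ t)
    (ht2 : (t : ℝ) ≤ x + 1) (hL : 1 ≤ L) : (expoN N t L : ℝ) ≤ 28 * L * x ^ 5 := by
  unfold expoN
  push_cast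
  have hx0 : (0 : ℝ) ≤ x := by linarith
  have htpos : (0 : ℝ) < t := by linarith
  have hL' : (1 : ℝ) ≤ L := by exact_mod_cast hL
  have h1 : ((((2 * L + 1) * N) / t : ℕ) : ℝ) ≤ ((2 * (L : ℝ) + 1) * N) / t := by
    have e := Nat.cast_div_le (α := ℝ) (m := (2 * L + 1) * N) (n := t)
    push_cast at e
    exact e
  have h2 : ((2 * (L : ℝ) + 1) * N) / t ≤ 3 * L * x ^ 5 := by
    rw [div_le_iff₀ htpos, ← hx6]
    have e1 : (2 * (L : ℝ) + 1) * x ^ 6 ≤ 3 * L * x ^ 6 :=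
      mul_le_mul_of_nonneg_right (by linarith) (by positivity)
    have e2 : 3 * (L : ℝ) * x ^ 6 ≤ 3 * L * x ^ 5 * t := by
      have e3 : 3 * (L : ℝ) * x ^ 6 = 3 * L * x ^ 5 * x := by ring
      rw [e3]
      exact mul_le_mul_of_nonneg_left ht1 (by positivity)
    linarith
  have h3 : (Nat.sqrt N : ℝ) ≤ x ^ 3 := by
    have e1 : (Nat.sqrt N : ℝ) ^ 2 ≤ (x ^ 3) ^ 2 := by
      have h := Nat.sqrt_le' N
      have e2 : ((Nat.sqrt N ^ 2 : ℕ) : ℝ) ≤ N := by exact_mod_cast h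
      push_cast at e2
      calc (Nat.sqrt N : ℝ) ^ 2 ≤ (N : ℝ) := e2
        _ = (x ^ 3) ^ 2 := by rw [← hx6]; ring
    exact (pow_le_pow_iff_left₀ (Nat.cast_nonneg _) (by positivity) (by norm_num)).1 e1
  have h4 : ((t : ℝ) * t + 4) ≤ 8 * x ^ 2 := by nlinarith
  have h5 : (Nat.sqrt N : ℝ) + 1 ≤ 2 * x ^ 3 := by
    have : 1 ≤ x ^ 3 := one_le_pow₀ hx1
    linarith
  have h6 : ((t : ℝ) * t + 4) * (((Nat.sqrt N : ℝ) + 1) * L) ≤ 16 * L * x ^ 5 := by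
    calc ((t : ℝ) * t + 4) * (((Nat.sqrt N : ℝ) + 1) * L)
        ≤ (8 * x ^ 2) * ((2 * x ^ 3) * L) := by gcongr
      _ = 16 * L * x ^ 5 := by ring
  linarith

/-- Choice of the parameters.  Put `Λ = logb 2 (1088 (N + 1) / ε) ≥ 11`, `L = ⌈Λ⌉₊ ≤ 1.1 Λ`,
`t = ⌈N ^ (1/6)⌉₊`, so `N ^ (1/6) ≤ t ≤ 2 N ^ (1/6)`.  Then `2 ^ L ≥ 1088 (N + 1) / ε`,
`expoN N t L ≤ 12 L N ^ (5/6) + 16 L N ^ (5/6) = 28 L N ^ (5/6)`, `9 ≤ 2 ^ (16/5)`,
`gam ^ n = 2 ^ (-n/4)` (`gam ^ 4 = 1 / 2`, `gam_pow_four`; or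
`gam = (1 / 2) ^ (1 / 4)` by definition), and
`(16/5) * 3 * 28 * 1.1 * Λ * N ^ (5/6) + logb 2 (36 / ε) ≤ 300 Λ N ^ (5/6) ≤ n / 4`. -/
theorem scalar4 (n N : ℕ) (ε : ℝ) (hε0 : 0 < ε) (hε1 : ε ≤ 1) (hN : 1 ≤ N)
    (h : 1200 * (N : ℝ) ^ (5 / 6 : ℝ) * Real.logb 2 (1088 * ((N : ℝ) + 1) / ε) ≤ n) :
    ∃ t L : ℕ, 1 ≤ t ∧ 16 * (N + 1) ≤ 2 ^ L ∧ 544 * ((N : ℝ) + 1) / 2 ^ L ≤ ε / 2 ∧
      18 * (9 : ℝ) ^ (3 * expoN N t L) * gam ^ n ≤ ε / 2 := by
  obtain ⟨x, hx⟩ : ∃ x : ℝ, x = (N : ℝ) ^ (1 / 6 : ℝ) := ⟨_, rfl⟩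
  have hN' : (1 : ℝ) ≤ N := by exact_mod_cast hN
  have hN0 : (0 : ℝ) ≤ N := by linarith
  have hx1 : 1 ≤ x := by rw [hx]; exact Real.one_le_rpow hN' (by norm_num)
  have hx6 : x ^ 6 = N := by
    rw [hx, ← Real.rpow_natCast, ← Real.rpow_mul hN0]; norm_num
  have hx5 : (N : ℝ) ^ (5 / 6 : ℝ) = x ^ 5 := by
    rw [hx, ← Real.rpow_natCast, ← Real.rpow_mul hN0]; norm_num
  obtain ⟨A, hA⟩ : ∃ A : ℝ, A = 1088 * ((N : ℝ) + 1) / ε := ⟨_, rfl⟩
  rw [← hA, hx5] at h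
  have hAε : A * ε = 1088 * ((N : ℝ) + 1) := by rw [hA]; field_simp
  have hA1 : 1088 * ((N : ℝ) + 1) ≤ A := by
    rw [hA, le_div_iff₀ hε0]
    have : 0 ≤ 1088 * ((N : ℝ) + 1) := by positivity
    nlinarith
  have hA2 : (2176 : ℝ) ≤ A := by linarith
  have hApos : 0 < A := by linarith
  obtain ⟨Λ, hΛ⟩ : ∃ Λ : ℝ, Λ = Real.logb 2 A := ⟨_, rfl⟩
  rw [← hΛ] at h
  have hl2 : 0 < Real.log 2 := Real.log_pos (by norm_num)
  have hΛlog : Λ * Real.log 2 = Real.log A := by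
    rw [hΛ, Real.logb]; field_simp
  have hΛ10 : 10 ≤ Λ := by
    rw [hΛ, Real.le_logb_iff_rpow_le (by norm_num) hApos]
    have e : (2 : ℝ) ^ (10 : ℝ) = 1024 := by
      rw [show (10 : ℝ) = ((10 : ℕ) : ℝ) by norm_num, Real.rpow_natCast]; norm_num
    rw [e]; linarith
  obtain ⟨L, hL⟩ : ∃ L : ℕ, L = ⌈Λ⌉₊ := ⟨_, rfl⟩
  obtain ⟨t, ht⟩ : ∃ t : ℕ, t = ⌈x⌉₊ := ⟨_, rfl⟩
  have hL1 : Λ ≤ L := by rw [hL]; exact Nat.le_ceil Λ
  have hL2 : (L : ℝ) < Λ + 1 := by rw [hL]; exact Nat.ceil_lt_add_one (by linarith)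
  have ht1 : x ≤ t := by rw [ht]; exact Nat.le_ceil x
  have ht2 : (t : ℝ) ≤ x + 1 := by rw [ht]; exact (Nat.ceil_lt_add_one (by linarith)).le
  have hLone : 1 ≤ L := by
    have : (1 : ℝ) ≤ L := by linarith
    exact_mod_cast this
  have h2L : A ≤ (2 : ℝ) ^ L := by
    calc A = (2 : ℝ) ^ Λ := by rw [hΛ, Real.rpow_logb (by norm_num) (by norm_num) hApos]
      _ ≤ (2 : ℝ) ^ (L : ℝ) := Real.rpow_le_rpow_of_exponent_le (by norm_num) hL1
      _ = (2 : ℝ) ^ L := Real.rpow_natCast _ _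
  refine ⟨t, L, ?_, ?_, ?_, ?_⟩
  · have : (1 : ℝ) ≤ t := by linarith
    exact_mod_cast this
  · have : ((16 * (N + 1) : ℕ) : ℝ) ≤ ((2 ^ L : ℕ) : ℝ) := by
      push_cast
      linarith
    exact_mod_cast this
  · rw [div_le_iff₀ (by positivity)]
    have : ε / 2 * A ≤ ε / 2 * 2 ^ L := mul_le_mul_of_nonneg_left h2L (by linarith)
    nlinarith
  · have hE := expoN_le N t L x hx1 hx6 ht1 ht2 hLone
    obtain ⟨E, hEdef⟩ : ∃ E : ℕ, E = expoN N t L := ⟨_, rfl⟩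
    rw [← hEdef] at hE ⊢
    have hgp := gam_pos
    have key : Real.log (18 * (9 : ℝ) ^ (3 * E) * gam ^ n) ≤ Real.log (ε / 2) := by
      rw [Real.log_mul (by positivity) (by positivity), Real.log_mul (by norm_num) (by positivity),
        Real.log_pow, Real.log_pow, log_gam, Real.log_div hε0.ne' (by norm_num)]
      push_cast
      obtain ⟨y, hy⟩ : ∃ y : ℝ, y = x ^ 5 := ⟨_, rfl⟩
      rw [← hy] at hE h
      have hy1 : 1 ≤ y := by rw [hy]; exact one_le_pow₀ hx1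
      obtain ⟨a, ha⟩ : ∃ a : ℝ, a = Real.log A := ⟨_, rfl⟩
      rw [← ha] at hΛlog
      obtain ⟨l, hl⟩ : ∃ l : ℝ, l = Real.log 2 := ⟨_, rfl⟩
      rw [← hl] at hΛlog hl2 ⊢
      have h9 : Real.log 9 ≤ 16 / 5 * l := by rw [hl]; exact log_nine_le
      have ha0 : 0 ≤ a := by rw [← hΛlog]; exact mul_nonneg (by linarith) hl2.le
      have f6 : Real.log 18 + l - Real.log ε ≤ a := by
        have e1 : Real.log (36 / ε) ≤ Real.log A := by
          apply Real.log_le_log (by positivity)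
          rw [hA]
          apply div_le_div_of_nonneg_right _ hε0.le
          linarith
        rw [Real.log_div (by norm_num) hε0.ne', show (36 : ℝ) = 18 * 2 by norm_num,
          Real.log_mul (by norm_num) (by norm_num), ← hl, ← ha] at e1
        exact e1
      have hE0 : (0 : ℝ) ≤ E := Nat.cast_nonneg _
      have g1 : 3 * (E : ℝ) * Real.log 9 ≤ 3 * (E : ℝ) * (16 / 5 * l) :=
        mul_le_mul_of_nonneg_left h9 (by positivity)
      have g2 : (L : ℝ) * l ≤ 11 / 10 * a := by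
        have : (L : ℝ) ≤ 11 / 10 * Λ := by linarith
        calc (L : ℝ) * l ≤ 11 / 10 * Λ * l := mul_le_mul_of_nonneg_right this hl2.le
          _ = 11 / 10 * a := by rw [← hΛlog]; ring
      have g3 : (E : ℝ) * l ≤ 28 * y * (11 / 10 * a) := by
        calc (E : ℝ) * l ≤ 28 * L * y * l := mul_le_mul_of_nonneg_right hE hl2.le
          _ = 28 * y * (L * l) := by ring
          _ ≤ 28 * y * (11 / 10 * a) := mul_le_mul_of_nonneg_left g2 (by positivity)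
      have g4 : 1200 * y * a ≤ n * l := by
        calc 1200 * y * a = 1200 * y * Λ * l := by rw [← hΛlog]; ring
          _ ≤ n * l := mul_le_mul_of_nonneg_right h hl2.le
      have g5 : a ≤ y * a := by nlinarith
      have g6 : 0 ≤ y * a := by positivity
      linarith
    exact (Real.log_le_log_iff (by positivity) (by positivity)).1 key

end Vale.Agent.Lib.P368
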