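import Vale.Agent.Lib.P368.D4.Top4
import Vale.Agent.Lib.P368.D4.Err4
import Vale.Agent.Lib.P368.D4.Scalar4

/-! # Entangling depth four: the bounds in terms of the number of qubits -/

namespace Vale.Agent.Lib.P368

open Matrix Finset

theorem expo4_eq (n a t L : ℕ) : expo4 (Fin n ⊕ Fin a) t L = expoN (n + a) t L := by
  unfold expo4 expo3 expoN
  simp

theorem cost4 (c : ℝ) (hc : 1 ≤ c) : (1 + 2 * c) * c * (1 + 2 * c) ≤ 9 * c ^ 3 := by
  have h1 : 1 + 2 * c ≤ 3 * c := by linarith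
  have h0 : 0 ≤ 1 + 2 * c := by linarith
  have hc0 : 0 ≤ c := by linarith
  calc (1 + 2 * c) * c * (1 + 2 * c) ≤ (3 * c) * c * (3 * c) := by gcongr
    _ = 9 * c ^ 3 := by ring

/-- entangling depth at most four, free parameters `t` and `L` -/
theorem depth_four_explicit {n a : ℕ} (C : List (List (Gate (Fin n ⊕ Fin a))))
    (hC : circuitValid C) (hd : entanglingDepth C ≤ 4) (o : Fin n ⊕ Fin a) (t L : ℕ)
    (ht : 1 ≤ t) (hL : 16 * (n + a + 1) ≤ 2 ^ L) :
    |parityCorrelation C o|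
      ≤ 544 * (((n + a : ℕ) : ℝ) + 1) / 2 ^ L + 18 * (9 : ℝ) ^ (3 * expoN (n + a) t L) * gam ^ n := by
  have h := depth_four_param C hC hd o t L ht _ _ rfl rfl
  have h1 := err4 (n + a) L hL _ rfl
  have hc1 : (1 : ℝ) ≤ 9 ^ expo4 (Fin n ⊕ Fin a) t L := one_le_pow₀ (by norm_num)
  have h2 := cost4 _ hc1
  rw [expo4_eq] at h h2
  have hg : 0 ≤ gam ^ n := pow_nonneg gam_pos.le _
  have h3 := mul_le_mul_of_nonneg_right h2 hg
  have e3 : ((9 : ℝ) ^ expoN (n + a) t L) ^ 3 = 9 ^ (3 * expoN (n + a) t L) := by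
    rw [← pow_mul, mul_comm]
  rw [e3] at h3
  calc |parityCorrelation C o| ≤ _ := h
    _ ≤ 2 * (272 * (((n + a : ℕ) : ℝ) + 1) / 2 ^ L
        + 9 * 9 ^ (3 * expoN (n + a) t L) * gam ^ n) := by
        gcongr
    _ = _ := by ring

/-- entangling depth at most four: no fixed correlation with `o ((n / log n) ^ (6/5))` qubits -/
theorem depth_four_bound {n a : ℕ} (C : List (List (Gate (Fin n ⊕ Fin a))))
    (hC : circuitValid C) (hd : entanglingDepth C ≤ 4) (o : Fin n ⊕ Fin a) (ε : ℝ) (hε0 : 0 < ε)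
    (hε1 : ε ≤ 1)
    (h : 1200 * ((n : ℝ) + a) ^ (5 / 6 : ℝ) * Real.logb 2 (1088 * ((n : ℝ) + a + 1) / ε) ≤ n) :
    |parityCorrelation C o| ≤ ε := by
  have hN : 1 ≤ n + a := by
    rcases o with i | i
    · have := i.pos; omega
    · have := i.pos; omega
  have h' : 1200 * ((n + a : ℕ) : ℝ) ^ (5 / 6 : ℝ)
      * Real.logb 2 (1088 * (((n + a : ℕ) : ℝ) + 1) / ε) ≤ n := by
    push_cast
    exact h
  obtain ⟨t, L, ht, hL, h1, h2⟩ := scalar4 n (n + a) ε hε0 hε1 hN h'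
  have := depth_four_explicit C hC hd o t L ht hL
  linarith

end Vale.Agent.Lib.P368
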