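import Vale.Agent.Lib.P368.D4.Level2

/-! # The large gates of a layer -/

namespace Vale.Agent.Lib.P368

open Matrix Finset
open scoped Matrix.Norms.L2Operator

set_option linter.unusedSectionVars false

variable {ι : Type} [Fintype ι] [DecidableEq ι]

/-- the exponent of the cost of one large gate -/
def gateExp (L : ℕ) (r : Finset ι × (ι → M2)) : ℕ := (Nat.sqrt r.1.card + 1) * L + 1

/-- a single reflection below the layer `ρ₂`: `level2_apx` for `prodOp r.2` with `S = r.1`,
`Apx.one_sub_two`, `1 + 2 * 39 ^ j ≤ 39 ^ (j + 1)` -/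
theorem refl_apx (ρ₂ : List (Finset ι × (ι → M2))) (hρ₂ : rlistValid ρ₂)
    (r : Finset ι × (ι → M2)) (hr : ReflValid r) (L : ℕ) :
    Apx ρ₂ (1 + 4 / 2 ^ L) (39 ^ gateExp L r) (reflOp r) := by
  have h1 := level2_apx ρ₂ hρ₂ r.2 (fun j => hr.site j) r.1 hr.2 L
  have h2 := Apx.one_sub_two hρ₂.1 h1
  refine Apx.mono h2 (le_of_eq (by ring)) ?_
  have h3 : (1 : ℝ) ≤ 39 ^ ((Nat.sqrt r.1.card + 1) * L) := one_le_pow₀ (by norm_num)
  unfold gateExp
  rw [pow_succ]
  linarith

theorem rlist_sum_card_aux (l : List (Finset ι × (ι → M2)))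
    (hp : l.Pairwise (fun r s => Disjoint r.1 s.1)) :
    ∃ U : Finset ι, (l.map (fun r => r.1.card)).sum ≤ U.card ∧
      ∀ t : Finset ι, (∀ r ∈ l, Disjoint t r.1) → Disjoint t U := by
  induction l with
  | nil => exact ⟨∅, by simp, fun t _ => Finset.disjoint_empty_right t⟩
  | cons r l ih =>
    obtain ⟨U, hU, hd⟩ := ih (List.pairwise_cons.1 hp).2
    have hrU : Disjoint r.1 U := hd r.1 (List.pairwise_cons.1 hp).1
    refine ⟨r.1 ∪ U, ?_, ?_⟩
    · rw [Finset.card_union_of_disjoint hrU, List.map_cons, List.sum_cons]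
      omega
    · intro t ht
      rw [Finset.disjoint_union_right]
      exact ⟨ht r List.mem_cons_self, hd t (fun s hs => ht s (List.mem_cons_of_mem _ hs))⟩

theorem rlist_sum_card (l : List (Finset ι × (ι → M2))) (hl : rlistValid l) :
    (l.map (fun r => r.1.card)).sum ≤ Fintype.card ι := by
  obtain ⟨U, hU, -⟩ := rlist_sum_card_aux l hl.2
  exact hU.trans (Finset.card_le_univ U)

theorem gateExp_le (t : ℕ) (L : ℕ) (r : Finset ι × (ι → M2))
    (hbig : t * t < r.1.card) : t * gateExp L r ≤ (2 * L + 1) * r.1.card := by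
  unfold gateExp
  have h1 : t ≤ Nat.sqrt r.1.card := Nat.le_sqrt.2 hbig.le
  have h2 : Nat.sqrt r.1.card * Nat.sqrt r.1.card ≤ r.1.card := Nat.sqrt_le _
  have h3 : t * Nat.sqrt r.1.card ≤ r.1.card := (Nat.mul_le_mul_right _ h1).trans h2
  have h4 : t ≤ r.1.card := (Nat.le_mul_self t).trans hbig.le
  calc t * ((Nat.sqrt r.1.card + 1) * L + 1)
      = (t * Nat.sqrt r.1.card + t) * L + t := by ring
    _ ≤ (r.1.card + r.1.card) * L + r.1.card := by gcongr
    _ = (2 * L + 1) * r.1.card := by ring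

/-- counting: gates with more than `t ^ 2` qubits in a layer.
`t * Nat.sqrt |r| ≤ Nat.sqrt |r| ^ 2 ≤ |r|`, `t ≤ t * t < |r|`, and the supports are pairwise
disjoint, so `∑ |r| ≤ card ι` (induction on the list, compare `rlist_two_mul_length_aux` in
`D3/NF3.lean`) -/
theorem large_count (l : List (Finset ι × (ι → M2))) (hl : rlistValid l) (t : ℕ) (ht : 1 ≤ t)
    (hbig : ∀ r ∈ l, t * t < r.1.card) (L : ℕ) :
    l.length ≤ Fintype.card ι ∧
      t * (l.map (gateExp L)).sum ≤ (2 * L + 1) * Fintype.card ι := by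
  have hsum := rlist_sum_card l hl
  have key : ∀ l : List (Finset ι × (ι → M2)), (∀ r ∈ l, t * t < r.1.card) →
      l.length ≤ (l.map (fun r => r.1.card)).sum ∧
        t * (l.map (gateExp L)).sum ≤ (2 * L + 1) * (l.map (fun r => r.1.card)).sum := by
    intro l
    induction l with
    | nil => intro _; simp
    | cons r l ih =>
      intro hb
      obtain ⟨i1, i2⟩ := ih (fun s hs => hb s (List.mem_cons_of_mem _ hs))
      have hr := hb r List.mem_cons_self
      have h5 := gateExp_le t L r hr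
      constructor
      · rw [List.length_cons, List.map_cons, List.sum_cons]
        omega
      · rw [List.map_cons, List.sum_cons, List.map_cons, List.sum_cons, Nat.mul_add, Nat.mul_add]
        exact Nat.add_le_add h5 i2
  obtain ⟨k1, k2⟩ := key l hbig
  exact ⟨k1.trans hsum, k2.trans (Nat.mul_le_mul_left _ hsum)⟩

end Vale.Agent.Lib.P368
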