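import Vale.Agent.Lib.P368.D4.OrthSum
import Vale.Agent.Lib.P368.D4.ChebGauge

/-! # One layer above a gauge: the polynomial method in operator form -/

namespace Vale.Agent.Lib.P368

open Matrix Finset
open scoped Matrix.Norms.L2Operator

set_option linter.unusedSectionVars false

variable {ι : Type} [Fintype ι] [DecidableEq ι]

theorem conjBy_finsum {κ : Type} (ρ : List (Finset ι × (ι → M2))) (s : Finset κ) (F : κ → Op ι) :
    conjBy ρ (∑ k ∈ s, F k) = ∑ k ∈ s, conjBy ρ (F k) := by
  unfold conjBy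
  rw [Finset.mul_sum, Finset.sum_mul]

/-- operator version of `sum_ind_patW` (`D3/Diag.lean`, same proof) -/
theorem sum_ind_pat_op (ρ : List (Finset ι × (ι → M2))) (B : ι → M2) (A : Finset ι) :
    ∑ σ : ι → Bool, (((if ∀ j ∈ A, σ j = true then 1 else 0 : ℝ)) : ℂ) • conjBy ρ (patOp B σ)
      = conjBy ρ (prodOp (fun j => if j ∈ A then B j else 1)) := by
  have hg := sum_patOp_weight B
    (fun j b => if j ∈ A then (if b = true then (1 : ℂ) else 0) else 1)
  have hR : (fun j => (if j ∈ A then (if true = true then (1 : ℂ) else 0) else 1) • B j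
      + (if j ∈ A then (if false = true then (1 : ℂ) else 0) else 1) • (1 - B j))
      = (fun j => if j ∈ A then B j else 1) := by
    funext j
    by_cases h : j ∈ A
    · simp [h]
    · simp [h]
  rw [hR] at hg
  rw [← hg, conjBy_finsum]
  refine Finset.sum_congr rfl fun σ _ => ?_
  rw [conjBy_smul]
  congr 1
  have hp : (∏ j, (if j ∈ A then (if σ j = true then (1 : ℂ) else 0) else 1))
      = ∏ j ∈ A, (if σ j = true then (1 : ℂ) else 0) := by
    rw [← Finset.prod_filter]
    refine Finset.prod_congr ?_ fun _ _ => rfl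
    ext j
    simp
  rw [hp, Finset.prod_ite_zero]
  by_cases h : ∀ j ∈ A, σ j = true
  · rw [if_pos h, if_pos h]; simp
  · rw [if_neg h, if_neg h]; simp

/-- the sites tested by the monomial `T`: the sites in no gate of `G`, and the sites of the gates
of `T` -/
def monoSites (G T : Finset (Finset ι × (ι → M2))) : Finset ι :=
  Finset.univ.filter (fun j => ∀ r ∈ G, j ∉ r.1) ∪ T.biUnion (fun r => r.1)

/-- for `x ≥ 1` the Chebyshev values are at least one and increase -/
theorem cheb_ge_one_aux {x : ℝ} (hx : 1 ≤ x) (k : ℕ) :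
    1 ≤ cheb x k ∧ cheb x k ≤ cheb x (k + 1) := by
  induction k with
  | zero => exact ⟨le_of_eq (cheb_zero x).symm, by rw [cheb_zero, cheb_one]; exact hx⟩
  | succ k ih =>
    refine ⟨ih.1.trans ih.2, ?_⟩
    rw [cheb_succ_succ]
    have h0 : 0 ≤ cheb x (k + 1) := by linarith [ih.1, ih.2]
    nlinarith [mul_nonneg (sub_nonneg.2 hx) h0, ih.1, ih.2]

/-- The layer lemma.  `B` is a product of one-site projectors, `G` contains all gates of the layer
`ρ` that see a nontrivial site of `B`, `|G| ≤ m`.  If for all `T ⊆ G` the operator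
`conjBy ρ (prodOp (B restricted to monoSites G T))` has gauge `b ^ |T|`, then `conjBy ρ (prodOp B)`
is within `2 / (1 + sqrt (2 / m)) ^ k` in operator norm of an operator of gauge `(4 b + 3) ^ k`.

Plan: follow the proof of `core3_touch` (`D3/Core3.lean`) with `w σ = conjBy ρ (patOp B σ)`,
`fr σ = [σ = true on the sites in no gate of G]`, `pass r σ = [σ = true on r.1]`.
If `G = ∅` take `Z = conjBy ρ (prodOp B)`.  Otherwise, `t = cheb (1 + 1 / |G|) k`,
`Z = (1 / t) • ∑ σ, (fr σ * cheb (ell pass G σ) k) • w σ`; gauge by `cheb_gauge` (with `g = 1`) and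
`1 ≤ t` (for `x ≥ 1`, `cheb x (k + 1) ≥ cheb x k ≥ 1` by induction); `conjBy ρ (prodOp B) - Z = ∑ σ, c σ • w σ` with `|c σ| ≤ 1 / t` (`ell_all_pass`,
`ell_abs_le`, `cheb_abs_le_one`), then `opn_sum_pat_le`; finally
`(1 + sqrt (2 / m)) ^ k / 2 ≤ t` by `cheb_lower` as at the end of `core3_touch`. -/
theorem layer_lemma (𝔊 : Gauge (Op ι)) (ρ : List (Finset ι × (ι → M2))) (hρ : rlistValid ρ)
    (B : ι → M2) (hB : SiteP B) (G : Finset (Finset ι × (ι → M2))) (hGρ : ∀ r ∈ G, r ∈ ρ)
    (hG : ∀ r ∈ ρ, r ∉ G → ∀ j ∈ r.1, B j = 1) (b : ℝ) (hb : 1 ≤ b)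
    (H : ∀ T ⊆ G, 𝔊.P (b ^ T.card)
      (conjBy ρ (prodOp (fun j => if j ∈ monoSites G T then B j else 1))))
    (m : ℝ) (hm : 1 ≤ m) (hcard : (G.card : ℝ) ≤ m) (k : ℕ) :
    ∃ Z : Op ι, ‖conjBy ρ (prodOp B) - Z‖ ≤ 2 / (1 + Real.sqrt (2 / m)) ^ k ∧
      𝔊.P ((4 * b + 3) ^ k) Z := by
  classical
  have hpow1 : (1 : ℝ) ≤ (4 * b + 3) ^ k := one_le_pow₀ (by linarith)
  have hgrow : (0 : ℝ) < (1 + Real.sqrt (2 / m)) ^ k := by positivity
  set F : Finset ι := Finset.univ.filter (fun j => ∀ r ∈ G, j ∉ r.1) with hF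
  let fr : (ι → Bool) → ℝ := fun σ => if ∀ j ∈ F, σ j = true then 1 else 0
  let pass : (Finset ι × (ι → M2)) → (ι → Bool) → ℝ :=
    fun r σ => if ∀ j ∈ r.1, σ j = true then 1 else 0
  have hfr : ∀ σ, fr σ = 0 ∨ fr σ = 1 := fun σ => by
    by_cases h : ∀ j ∈ F, σ j = true
    · exact Or.inr (if_pos h)
    · exact Or.inl (if_neg h)
  have hpass : ∀ r σ, pass r σ = 0 ∨ pass r σ = 1 := fun r σ => by
    by_cases h : ∀ j ∈ r.1, σ j = true
    · exact Or.inr (if_pos h)
    · exact Or.inl (if_neg h)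
  have hind : ∀ (T : Finset (Finset ι × (ι → M2))) (σ : ι → Bool),
      fr σ * ∏ r ∈ T, pass r σ = if ∀ j ∈ monoSites G T, σ j = true then 1 else 0 := by
    intro T σ
    have h1 : ∏ r ∈ T, pass r σ = if ∀ r ∈ T, ∀ j ∈ r.1, σ j = true then 1 else 0 :=
      Finset.prod_boole
    rw [h1]
    by_cases ha : ∀ j ∈ F, σ j = true
    · by_cases hb' : ∀ r ∈ T, ∀ j ∈ r.1, σ j = true
      · have hc : ∀ j ∈ monoSites G T, σ j = true := by
          intro j hj
          rcases Finset.mem_union.1 hj with h | h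
          · exact ha j h
          · obtain ⟨r, hr, hjr⟩ := Finset.mem_biUnion.1 h
            exact hb' r hr j hjr
        simp only [fr, if_pos ha, if_pos hb', if_pos hc, mul_one]
      · have hc : ¬ ∀ j ∈ monoSites G T, σ j = true := by
          intro hc
          apply hb'
          intro r hr j hj
          exact hc j (Finset.mem_union_right _ (Finset.mem_biUnion.2 ⟨r, hr, hj⟩))
        simp only [if_neg hb', if_neg hc, mul_zero]
    · have hc : ¬ ∀ j ∈ monoSites G T, σ j = true := by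
        intro hc
        apply ha
        intro j hj
        exact hc j (Finset.mem_union_left _ hj)
      simp only [fr, if_neg ha, if_neg hc, zero_mul]
  have hsum : ∀ T : Finset (Finset ι × (ι → M2)),
      ∑ σ : ι → Bool, ((fr σ * ∏ r ∈ T, pass r σ : ℝ) : ℂ) • conjBy ρ (patOp B σ)
        = conjBy ρ (prodOp (fun j => if j ∈ monoSites G T then B j else 1)) := by
    intro T
    rw [← sum_ind_pat_op]
    refine Finset.sum_congr rfl fun σ _ => ?_
    rw [hind]
  have hAG : ∀ j, j ∈ monoSites G G := by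
    intro j
    by_cases hj : ∀ r ∈ G, j ∉ r.1
    · exact Finset.mem_union_left _ (Finset.mem_filter.2 ⟨Finset.mem_univ _, hj⟩)
    · push Not at hj
      obtain ⟨r, hr, hjr⟩ := hj
      exact Finset.mem_union_right _ (Finset.mem_biUnion.2 ⟨r, hr, hjr⟩)
  have hBG : (fun j => if j ∈ monoSites G G then B j else 1) = B := by
    funext j
    rw [if_pos (hAG j)]
  have hfull : ∑ σ : ι → Bool, ((fr σ * ∏ r ∈ G, pass r σ : ℝ) : ℂ) • conjBy ρ (patOp B σ)
      = conjBy ρ (prodOp B) := by
    rw [hsum, hBG]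
  rcases Finset.eq_empty_or_nonempty G with hGe | hGne
  · refine ⟨conjBy ρ (prodOp B), ?_, ?_⟩
    · rw [sub_self, norm_zero]
      positivity
    · have h0 := H G (Finset.Subset.refl G)
      rw [hBG, hGe, Finset.card_empty, pow_zero] at h0
      exact 𝔊.mono h0 hpow1
  have hM : 0 < G.card := Finset.card_pos.2 hGne
  have hMr : (0 : ℝ) < (G.card : ℝ) := by exact_mod_cast hM
  set t : ℝ := cheb (1 + 1 / (G.card : ℝ)) k with ht
  have ht1 : 1 ≤ t := (cheb_ge_one_aux (x := 1 + 1 / (G.card : ℝ))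
    (by have : 0 ≤ 1 / (G.card : ℝ) := by positivity
        linarith) k).1
  have ht0 : 0 < t := by linarith
  set S : Op ι := ∑ σ : ι → Bool, ((fr σ * cheb (ell pass G σ) k : ℝ) : ℂ) • conjBy ρ (patOp B σ)
    with hS
  have hSg : 𝔊.P ((4 * b + 3) ^ k * 1) S := by
    refine cheb_gauge 𝔊 (fun σ => conjBy ρ (patOp B σ)) fr pass hpass G hGne b 1 hb zero_le_one
      ?_ k
    intro T hTG
    rw [hsum, mul_one]
    exact H T hTG
  refine ⟨((1 / t : ℝ) : ℂ) • S, ?_, ?_⟩
  · -- the norm estimate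
    have hdiff : conjBy ρ (prodOp B) - ((1 / t : ℝ) : ℂ) • S
        = ∑ σ : ι → Bool, ((fr σ * ∏ r ∈ G, pass r σ - (1 / t) * (fr σ * cheb (ell pass G σ) k)
            : ℝ) : ℂ) • conjBy ρ (patOp B σ) := by
      rw [← hfull, hS, Finset.smul_sum, ← Finset.sum_sub_distrib]
      refine Finset.sum_congr rfl fun σ _ => ?_
      rw [smul_smul, ← sub_smul]
      congr 1
      push_cast
      ring
    rw [hdiff]
    have hc : ∀ σ : ι → Bool, ‖((fr σ * ∏ r ∈ G, pass r σ
        - (1 / t) * (fr σ * cheb (ell pass G σ) k) : ℝ) : ℂ)‖ ≤ 1 / t := by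
      intro σ
      rw [Complex.norm_real, Real.norm_eq_abs]
      have h1t : 0 ≤ 1 / t := by positivity
      rcases hfr σ with h0 | h1
      · rw [h0]
        simpa using h1t
      · rw [h1, one_mul, one_mul]
        by_cases hall : ∀ r ∈ G, pass r σ = 1
        · rw [Finset.prod_eq_one hall, ell_all_pass pass G hGne σ hall, ← ht,
            one_div_mul_cancel ht0.ne', sub_self, abs_zero]
          exact h1t
        · push Not at hall
          obtain ⟨r, hr, hne⟩ := hall
          have hr0 : pass r σ = 0 := by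
            rcases hpass r σ with h | h
            · exact h
            · exact absurd h hne
          rw [Finset.prod_eq_zero hr hr0, zero_sub, abs_neg, abs_mul, abs_of_nonneg h1t]
          have h3 := cheb_abs_le_one (ell_abs_le pass hpass G σ ⟨r, hr, hr0⟩) k
          calc 1 / t * |cheb (ell pass G σ) k| ≤ 1 / t * 1 :=
                mul_le_mul_of_nonneg_left h3 h1t
            _ = 1 / t := mul_one _
    refine le_trans (opn_sum_pat_le ρ hρ.1 hB _ (1 / t) hc) ?_
    have hlow := cheb_lower (d := 1 / (G.card : ℝ)) (by positivity) k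
    have hmono : (1 + Real.sqrt (2 / m)) ^ k / 2
        ≤ (1 + Real.sqrt (2 * (1 / (G.card : ℝ)))) ^ k / 2 := by
      have : 2 / m ≤ 2 * (1 / (G.card : ℝ)) := by
        rw [mul_one_div]
        exact div_le_div_of_nonneg_left (by norm_num) hMr hcard
      have h2 := Real.sqrt_le_sqrt this
      have h3 : (1 + Real.sqrt (2 / m)) ^ k ≤ (1 + Real.sqrt (2 * (1 / (G.card : ℝ)))) ^ k :=
        pow_le_pow_left₀ (by positivity) (by linarith) k
      linarith
    have hle : (1 + Real.sqrt (2 / m)) ^ k / 2 ≤ t := hmono.trans hlow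
    rw [div_le_div_iff₀ ht0 hgrow]
    linarith
  · have h1 := 𝔊.smul ((1 / t : ℝ) : ℂ) hSg
    refine 𝔊.mono h1 ?_
    rw [Complex.norm_real, Real.norm_eq_abs, abs_of_nonneg (by positivity), mul_one]
    have h2 : 1 / t ≤ 1 := by
      rw [div_le_one ht0]
      exact ht1
    have h3 : (0 : ℝ) ≤ (4 * b + 3) ^ k := by linarith
    calc 1 / t * (4 * b + 3) ^ k ≤ 1 * (4 * b + 3) ^ k := mul_le_mul_of_nonneg_right h2 h3
      _ = (4 * b + 3) ^ k := one_mul _

end Vale.Agent.Lib.P368
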