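import Vale.Agent.Lib.P368.D4.Cost

/-! # Conjugating a product operator by a layer: gauge version -/

namespace Vale.Agent.Lib.P368

open Matrix Finset

set_option linter.unusedSectionVars false

variable {ι : Type} [Fintype ι] [DecidableEq ι]

/-- four vectors of gauge `K`: the combination `x - 2 y - 2 z + 4 w` has gauge `9 K` -/
theorem Gauge.four {V : Type} [AddCommGroup V] [Module ℂ V] (𝔊 : Gauge V) {K : ℝ} {x y z w : V}
    (hx : 𝔊.P K x) (hy : 𝔊.P K y) (hz : 𝔊.P K z) (hw : 𝔊.P K w) :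
    𝔊.P (9 * K) (x - (2 : ℂ) • y - (2 : ℂ) • z + (4 : ℂ) • w) := by
  have e : x - (2 : ℂ) • y - (2 : ℂ) • z + (4 : ℂ) • w
      = x + (-2 : ℂ) • y + (-2 : ℂ) • z + (4 : ℂ) • w := by
    simp only [neg_smul, sub_eq_add_neg]
  rw [e]
  have h := 𝔊.add (𝔊.add (𝔊.add hx (𝔊.smul (-2 : ℂ) hy)) (𝔊.smul (-2 : ℂ) hz))
    (𝔊.smul (4 : ℂ) hw)
  refine 𝔊.mono h (le_of_eq ?_)
  have h2 : ‖(-2 : ℂ)‖ = 2 := by simp
  have h4 : ‖(4 : ℂ)‖ = 4 := by simp
  rw [h2, h4]
  ring

/-- Gauge version of `seq_bound_finset` (`D3/SeqFin.lean`, same induction): all product operators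
supported in `W` have gauge `c₀`; the gates of the finset `T` have their supports in `W`; the gates
of `ρ` outside `T` only see identity sites of `B`.  Then `conjBy ρ (prodOp B)` has gauge
`9 ^ |T| * c₀`. -/
theorem seq_gauge (𝔊 : Gauge (Op ι)) (W : Finset ι) (c₀ : ℝ) (hc₀ : 0 ≤ c₀)
    (h₀ : ∀ B : ι → M2, Site1 B → (∀ j, j ∉ W → B j = 1) → 𝔊.P c₀ (prodOp B))
    (ρ : List (Finset ι × (ι → M2))) (hρ : rlistValid ρ) (B : ι → M2) (hB : Site1 B)
    (hBW : ∀ j, j ∉ W → B j = 1) (T : Finset (Finset ι × (ι → M2))) (hTW : ∀ r ∈ T, r.1 ⊆ W)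
    (hT : ∀ r ∈ ρ, r ∉ T → ∀ j ∈ r.1, B j = 1) :
    𝔊.P (9 ^ T.card * c₀) (conjBy ρ (prodOp B)) := by
  classical
  induction ρ generalizing B T with
  | nil =>
    rw [conjBy_nil]
    have h := h₀ B hB hBW
    have h9 : (1 : ℝ) ≤ 9 ^ T.card := one_le_pow₀ (by norm_num)
    refine 𝔊.mono h ?_
    calc c₀ = 1 * c₀ := (one_mul _).symm
      _ ≤ _ := mul_le_mul_of_nonneg_right h9 hc₀
  | cons r l ih =>
    have hr := hρ.1 r List.mem_cons_self
    have hl : rlistValid l :=
      ⟨fun s hs => hρ.1 s (List.mem_cons_of_mem _ hs), (List.pairwise_cons.1 hρ.2).2⟩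
    have hd : ∀ s ∈ l, Disjoint r.1 s.1 := (List.pairwise_cons.1 hρ.2).1
    rw [conjBy_cons hr]
    by_cases hrT : r ∈ T
    · rw [refl_conj_prodOp]
      simp only [conjBy_add, conjBy_sub, conjBy_smul]
      have key : ∀ s ∈ l, s ∉ T.erase r → ∀ j ∈ s.1, B j = 1 ∧ r.2 j = 1 := by
        intro s hs hsT j hj
        have hjr : j ∉ r.1 := fun h => Finset.disjoint_left.1 (hd s hs) h hj
        refine ⟨?_, hr.2 j hjr⟩
        by_cases hsr : s = r
        · subst hsr; exact absurd hj hjr
        · have hsT' : s ∉ T := fun h => hsT (Finset.mem_erase.2 ⟨hsr, h⟩)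
          exact hT s (List.mem_cons_of_mem _ hs) hsT' j hj
      have hrW : ∀ j, j ∉ W → r.2 j = 1 := fun j hj => hr.2 j (fun h => hj (hTW r hrT h))
      have hTW' : ∀ s ∈ T.erase r, s.1 ⊆ W := fun s hs => hTW s (Finset.mem_of_mem_erase hs)
      have b0 := ih hl B hB hBW (T.erase r) hTW' (fun s hs h j hj => (key s hs h j hj).1)
      have b1 := ih hl _ (Site1.left hr hB)
        (fun j hj => by simp only [hBW j hj, hrW j hj, mul_one]) (T.erase r) hTW'
        (fun s hs h j hj => by
          simp only [(key s hs h j hj).1, (key s hs h j hj).2, mul_one])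
      have b2 := ih hl _ (Site1.right hr hB)
        (fun j hj => by simp only [hBW j hj, hrW j hj, mul_one]) (T.erase r) hTW'
        (fun s hs h j hj => by
          simp only [(key s hs h j hj).1, (key s hs h j hj).2, mul_one])
      have b3 := ih hl _ (Site1.right hr (Site1.left hr hB))
        (fun j hj => by simp only [hBW j hj, hrW j hj, mul_one]) (T.erase r) hTW'
        (fun s hs h j hj => by
          simp only [(key s hs h j hj).1, (key s hs h j hj).2, mul_one])
      have h4 := 𝔊.four b0 b1 b2 b3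
      have hc : T.card = (T.erase r).card + 1 := (Finset.card_erase_add_one hrT).symm
      rw [hc, pow_succ]
      refine 𝔊.mono h4 (le_of_eq ?_)
      ring
    · rw [refl_commute hr (hT r List.mem_cons_self hrT)]
      exact ih hl B hB hBW T hTW (fun s hs => hT s (List.mem_cons_of_mem _ hs))

/-- a product operator supported on `W` conjugated by one layer costs at most `9 ^ |W|`
(`seq_gauge` for `costGauge`, with `univ` as the set `W` there, `c₀ = 1`, and `T` the set of gates
of `ρ` that meet `W`; these are at most `|W|`, see the end of the proof of `core3_supp`) -/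
theorem level2_exact (ρ : List (Finset ι × (ι → M2))) (hρ : rlistValid ρ) (B : ι → M2)
    (hB : Site1 B) (W : Finset ι) (hW : ∀ j, j ∉ W → B j = 1) :
    Cost (9 ^ W.card) (conjBy ρ (prodOp B)) := by
  classical
  set G : Finset (Finset ι × (ι → M2)) := ρ.toFinset.filter (fun r => (r.1 ∩ W).Nonempty) with hG
  have h := seq_gauge (costGauge (ι := ι)) Finset.univ 1 zero_le_one
    (fun B' hB' _ => Cost.base B' hB') ρ hρ B hB
    (fun j hj => absurd (Finset.mem_univ j) hj) G (fun r _ => Finset.subset_univ _)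
    (by
      intro r hr hrG j hj
      apply hW
      intro hjS
      exact hrG (Finset.mem_filter.2 ⟨List.mem_toFinset.2 hr, ⟨j, Finset.mem_inter.2 ⟨hj, hjS⟩⟩⟩))
  have hdis : (G : Set (Finset ι × (ι → M2))).PairwiseDisjoint (fun r => r.1 ∩ W) := by
    intro r hr s hs hne
    have hrρ : r ∈ ρ := List.mem_toFinset.1 (Finset.mem_filter.1 hr).1
    have hsρ : s ∈ ρ := List.mem_toFinset.1 (Finset.mem_filter.1 hs).1
    have : Std.Symm (fun a b : Finset ι × (ι → M2) => Disjoint a.1 b.1) :=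
      ⟨fun _ _ hab => hab.symm⟩
    have hd : Disjoint r.1 s.1 := hρ.2.forall hrρ hsρ hne
    exact hd.mono Finset.inter_subset_left Finset.inter_subset_left
  have h1 : G.card ≤ (G.biUnion (fun r => r.1 ∩ W)).card := by
    rw [Finset.card_biUnion hdis]
    calc G.card = ∑ _r ∈ G, 1 := by simp
      _ ≤ ∑ r ∈ G, (r.1 ∩ W).card :=
          Finset.sum_le_sum fun r hr => Finset.card_pos.2 (Finset.mem_filter.1 hr).2
  have h2 : (G.biUnion (fun r => r.1 ∩ W)).card ≤ W.card := by
    apply Finset.card_le_card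
    intro j hj
    obtain ⟨r, _, hjr⟩ := Finset.mem_biUnion.1 hj
    exact (Finset.mem_inter.1 hjr).2
  have h3 : (9 : ℝ) ^ G.card * 1 ≤ 9 ^ W.card := by
    rw [mul_one]
    exact pow_le_pow_right₀ (by norm_num) (h1.trans h2)
  exact Cost.mono h h3

end Vale.Agent.Lib.P368
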