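import Vale.Agent.Lib.P368.D4.Layer
import Vale.Agent.Lib.P368.D4.SeqGauge
import Vale.Agent.Lib.P368.D4.Apx

/-! # Product projectors below one layer -/

namespace Vale.Agent.Lib.P368

open Matrix Finset
open scoped Matrix.Norms.L2Operator

set_option linter.unusedSectionVars false

variable {ι : Type} [Fintype ι] [DecidableEq ι]

/-- `(1 + sqrt (2 / m)) ^ ((Nat.sqrt M + 1) * L) ≥ 2 ^ L` when `M ≤ m`, `1 ≤ m ≤ max 1 M`: Bernoulli,
`(1 + u) ^ j ≥ 1 + j u` with `j = Nat.sqrt M + 1 ≥ sqrt m` -/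
theorem growth_two (M : ℕ) (L : ℕ) :
    (2 : ℝ) ^ L ≤ (1 + Real.sqrt (2 / max 1 (M : ℝ))) ^ ((Nat.sqrt M + 1) * L) := by
  set m : ℝ := max 1 (M : ℝ) with hm
  set j : ℕ := Nat.sqrt M + 1 with hj
  set u : ℝ := Real.sqrt (2 / m) with hu
  have hm1 : (1 : ℝ) ≤ m := le_max_left _ _
  have hmpos : (0 : ℝ) < m := by linarith
  have hj1 : (1 : ℝ) ≤ (j : ℝ) := by
    have : 1 ≤ j := by omega
    exact_mod_cast this
  have hjpos : (0 : ℝ) < (j : ℝ) := by linarith
  have hMj : (M : ℝ) ≤ (j : ℝ) ^ 2 := by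
    have h : M < j * j := Nat.lt_succ_sqrt M
    have h' : M ≤ j ^ 2 := by nlinarith
    exact_mod_cast h'
  have hmj : m ≤ (j : ℝ) ^ 2 := by
    apply max_le _ hMj
    nlinarith
  have hu0 : 0 ≤ u := Real.sqrt_nonneg _
  have hju : 1 / (j : ℝ) ≤ u := by
    apply Real.le_sqrt_of_sq_le
    rw [div_pow, one_pow, div_le_div_iff₀ (by positivity) hmpos]
    nlinarith
  have h1 : (1 : ℝ) ≤ (j : ℝ) * u := by
    have := mul_le_mul_of_nonneg_left hju hjpos.le
    rwa [mul_one_div, div_self hjpos.ne'] at this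
  have h2 : (2 : ℝ) ≤ (1 + u) ^ j := by
    have hb := one_add_mul_le_pow (a := u) (by linarith) j
    linarith
  rw [pow_mul]
  exact pow_le_pow_left₀ (by norm_num) h2 L

/-- a product of one-site projectors supported on `S`: `layer_lemma` with `costGauge`, `b = 9`,
`G` the gates of `ρ₂` that meet `S` (at most `|S|`, see `core3_supp`), `m = max 1 |S|`,
`k = (Nat.sqrt |S| + 1) * L`; the hypothesis `H` comes from `seq_gauge` (with `univ` and `c₀ = 1`);
`4 * 9 + 3 = 39`; `growth_two` -/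
theorem level2_apx (ρ₂ : List (Finset ι × (ι → M2))) (hρ₂ : rlistValid ρ₂) (B : ι → M2)
    (hB : SiteP B) (S : Finset ι) (hS : ∀ j, j ∉ S → B j = 1) (L : ℕ) :
    Apx ρ₂ (1 + 2 / 2 ^ L) (39 ^ ((Nat.sqrt S.card + 1) * L)) (prodOp B) := by
  classical
  set G : Finset (Finset ι × (ι → M2)) := ρ₂.toFinset.filter (fun r => (r.1 ∩ S).Nonempty) with hG
  have hGρ : ∀ r ∈ G, r ∈ ρ₂ := fun r hr => List.mem_toFinset.1 (Finset.mem_filter.1 hr).1
  have hGB : ∀ r ∈ ρ₂, r ∉ G → ∀ j ∈ r.1, B j = 1 := by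
    intro r hr hrG j hj
    apply hS
    intro hjS
    exact hrG (Finset.mem_filter.2 ⟨List.mem_toFinset.2 hr, ⟨j, Finset.mem_inter.2 ⟨hj, hjS⟩⟩⟩)
  have hsymm : Std.Symm (fun a b : Finset ι × (ι → M2) => Disjoint a.1 b.1) :=
    ⟨fun _ _ hab => hab.symm⟩
  have hcard : (G.card : ℝ) ≤ max 1 (S.card : ℝ) := by
    have hdis : (G : Set (Finset ι × (ι → M2))).PairwiseDisjoint (fun r => r.1 ∩ S) := by
      intro r hr s hs hne
      have hd : Disjoint r.1 s.1 := hρ₂.2.forall (hGρ r hr) (hGρ s hs) hne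
      exact hd.mono Finset.inter_subset_left Finset.inter_subset_left
    have h1 : G.card ≤ (G.biUnion (fun r => r.1 ∩ S)).card := by
      rw [Finset.card_biUnion hdis]
      calc G.card = ∑ _r ∈ G, 1 := by simp
        _ ≤ ∑ r ∈ G, (r.1 ∩ S).card :=
            Finset.sum_le_sum fun r hr => Finset.card_pos.2 (Finset.mem_filter.1 hr).2
    have h2 : (G.biUnion (fun r => r.1 ∩ S)).card ≤ S.card := by
      apply Finset.card_le_card
      intro j hj
      obtain ⟨r, _, hjr⟩ := Finset.mem_biUnion.1 hj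
      exact (Finset.mem_inter.1 hjr).2
    have : (G.card : ℝ) ≤ (S.card : ℝ) := by exact_mod_cast h1.trans h2
    exact this.trans (le_max_right _ _)
  have H : ∀ T ⊆ G, (costGauge (ι := ι)).P ((9 : ℝ) ^ T.card)
      (conjBy ρ₂ (prodOp (fun j => if j ∈ monoSites G T then B j else 1))) := by
    intro T hT
    have hB' : Site1 (fun j => if j ∈ monoSites G T then B j else 1) := by
      intro j
      by_cases hj : j ∈ monoSites G T
      · have e : (if j ∈ monoSites G T then B j else 1) = B j := if_pos hj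
        show (if j ∈ monoSites G T then B j else 1) = 1 ∨ K1 (if j ∈ monoSites G T then B j else 1)
        rw [e]
        exact hB.site1 j
      · left
        exact if_neg hj
    have h := seq_gauge (costGauge (ι := ι)) Finset.univ 1 zero_le_one
      (fun B₀ hB₀ _ => Cost.base B₀ hB₀) ρ₂ hρ₂
      (fun j => if j ∈ monoSites G T then B j else 1) hB'
      (fun j hj => absurd (Finset.mem_univ j) hj) T (fun r _ => Finset.subset_univ _) ?_
    · rwa [mul_one] at h
    · intro r hr hrT j hj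
      by_cases hrG : r ∈ G
      · have hjn : j ∉ monoSites G T := by
          intro hmem
          rcases Finset.mem_union.1 hmem with h1 | h1
          · exact (Finset.mem_filter.1 h1).2 r hrG hj
          · obtain ⟨r', hr', hjr'⟩ := Finset.mem_biUnion.1 h1
            have hne : r ≠ r' := fun e => hrT (e ▸ hr')
            have hd : Disjoint r.1 r'.1 := hρ₂.2.forall hr (hGρ r' (hT hr')) hne
            exact Finset.disjoint_left.1 hd hj hjr'
        simp only [if_neg hjn]
      · have := hGB r hr hrG j hj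
        by_cases hjm : j ∈ monoSites G T
        · simp only [if_pos hjm]; exact this
        · simp only [if_neg hjm]
  obtain ⟨Z, hZ1, hZ2⟩ := layer_lemma (costGauge (ι := ι)) ρ₂ hρ₂ B hB G hGρ hGB 9 (by norm_num) H
    (max 1 (S.card : ℝ)) (le_max_left _ _) hcard ((Nat.sqrt S.card + 1) * L)
  refine ⟨Z, ?_, ?_⟩
  · have hg := growth_two S.card L
    have h2 : (0 : ℝ) < 2 ^ L := by positivity
    have : 2 / (1 + Real.sqrt (2 / max 1 (S.card : ℝ))) ^ ((Nat.sqrt S.card + 1) * L)
        ≤ 2 / (2 : ℝ) ^ L := div_le_div_of_nonneg_left (by norm_num) h2 hg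
    linarith
  · have e : (4 * 9 + 3 : ℝ) = 39 := by norm_num
    rw [e] at hZ2
    exact hZ2

end Vale.Agent.Lib.P368
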