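import Vale.Agent.Lib.P368.D4.OpNorm

/-! # Splitting a layer into its large and its small gates -/

namespace Vale.Agent.Lib.P368

open Matrix Finset

set_option linter.unusedSectionVars false

variable {ι : Type} [Fintype ι] [DecidableEq ι]

/-- reflections with disjoint supports commute (`prodOp_commute`: at every site one of the two
factors is the identity) -/
theorem reflOp_commute {r s : Finset ι × (ι → M2)} (hr : ReflValid r) (hs : ReflValid s)
    (hd : Disjoint r.1 s.1) : reflOp r * reflOp s = reflOp s * reflOp r := by
  have hc : Commute (prodOp r.2) (prodOp s.2) := by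
    refine prodOp_commute fun i => ?_
    by_cases hi : i ∈ r.1
    · have : i ∉ s.1 := Finset.disjoint_left.1 hd hi
      rw [hs.2 i this]
      exact Commute.one_right _
    · rw [hr.2 i hi]
      exact Commute.one_left _
  have h2 : Commute (reflOp r) (reflOp s) := by
    unfold reflOp
    refine Commute.sub_left (Commute.one_left _) ?_
    refine Commute.sub_right (Commute.one_right _) ?_
    exact (hc.smul_left _).smul_right _
  exact h2.eq

theorem rlistValid_filter {ρ : List (Finset ι × (ι → M2))} (hρ : rlistValid ρ)
    (p : Finset ι × (ι → M2) → Bool) : rlistValid (ρ.filter p) :=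
  ⟨fun r hr => hρ.1 r (List.mem_of_mem_filter hr), hρ.2.filter p⟩

theorem rlistOp_cons (r : Finset ι × (ι → M2)) (l : List (Finset ι × (ι → M2))) :
    rlistOp (r :: l) = reflOp r * rlistOp l := by
  simp [rlistOp]

/-- a reflection commutes with a list of reflections with supports disjoint from its own -/
theorem reflOp_commute_rlistOp {r : Finset ι × (ι → M2)} (hr : ReflValid r)
    (l : List (Finset ι × (ι → M2))) (hl : ∀ s ∈ l, ReflValid s)
    (hd : ∀ s ∈ l, Disjoint r.1 s.1) : reflOp r * rlistOp l = rlistOp l * reflOp r := by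
  induction l with
  | nil => simp [rlistOp]
  | cons s l ih =>
    rw [rlistOp_cons, ← Matrix.mul_assoc,
      reflOp_commute hr (hl s List.mem_cons_self) (hd s List.mem_cons_self), Matrix.mul_assoc,
      ih (fun s' hs' => hl s' (List.mem_cons_of_mem _ hs'))
        (fun s' hs' => hd s' (List.mem_cons_of_mem _ hs')), Matrix.mul_assoc]

/-- a layer is the product of the gates that satisfy `p` and of those that do not -/
theorem rlistOp_split (ρ : List (Finset ι × (ι → M2))) (hρ : rlistValid ρ)
    (p : Finset ι × (ι → M2) → Bool) :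
    rlistOp ρ = rlistOp (ρ.filter (fun r => !p r)) * rlistOp (ρ.filter p) := by
  induction ρ with
  | nil => simp [rlistOp]
  | cons r ρ ih =>
    have hρ' : rlistValid ρ :=
      ⟨fun s hs => hρ.1 s (List.mem_cons_of_mem _ hs), (List.pairwise_cons.1 hρ.2).2⟩
    have hr := hρ.1 r List.mem_cons_self
    rw [rlistOp_cons, ih hρ']
    by_cases hp : p r = true
    · have e1 : (r :: ρ).filter p = r :: ρ.filter p := List.filter_cons_of_pos hp
      have e2 : (r :: ρ).filter (fun r => !p r) = ρ.filter (fun r => !p r) :=
        List.filter_cons_of_neg (by simp [hp])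
      rw [e1, e2, rlistOp_cons, ← Matrix.mul_assoc, ← Matrix.mul_assoc]
      congr 1
      refine reflOp_commute_rlistOp hr _ (fun s hs => hρ'.1 s (List.mem_of_mem_filter hs)) ?_
      intro s hs
      exact (List.pairwise_cons.1 hρ.2).1 s (List.mem_of_mem_filter hs)
    · have e1 : (r :: ρ).filter p = ρ.filter p := List.filter_cons_of_neg hp
      have e2 : (r :: ρ).filter (fun r => !p r) = r :: ρ.filter (fun r => !p r) :=
        List.filter_cons_of_pos (by simpa using hp)
      rw [e1, e2, rlistOp_cons, Matrix.mul_assoc]

/-- the union of the supports of a list of gates -/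
def suppUnion (l : List (Finset ι × (ι → M2))) : Finset ι :=
  l.foldr (fun r s => r.1 ∪ s) ∅

theorem mem_suppUnion (l : List (Finset ι × (ι → M2))) (j : ι) :
    j ∈ suppUnion l ↔ ∃ r ∈ l, j ∈ r.1 := by
  induction l with
  | nil => simp [suppUnion]
  | cons s l ih =>
    have e : suppUnion (s :: l) = s.1 ∪ suppUnion l := rfl
    rw [e, Finset.mem_union, ih]
    constructor
    · rintro (h | ⟨r, hr, h⟩)
      · exact ⟨s, List.mem_cons_self, h⟩
      · exact ⟨r, List.mem_cons_of_mem _ hr, h⟩
    · rintro ⟨r, hr, h⟩
      rcases List.mem_cons.1 hr with rfl | hr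
      · exact Or.inl h
      · exact Or.inr ⟨r, hr, h⟩

/-- Factorisation of a product operator conjugated by a layer: the gates satisfying `p` (the large
ones) stay outside; the sites of the other gates (the small ones) are separated from the rest.
Use `rlistOp_split`, `prodOp_mul`, `conjBy_mul`, `conj_fix`. -/
theorem conjBy_factor (ρ : List (Finset ι × (ι → M2))) (hρ : rlistValid ρ)
    (p : Finset ι × (ι → M2) → Bool) (B : ι → M2) :
    conjBy ρ (prodOp B)
      = (rlistOp (ρ.filter p))ᴴ
        * (prodOp (fun j => if j ∈ suppUnion (ρ.filter (fun r => !p r)) then 1 else B j)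
          * conjBy (ρ.filter (fun r => !p r))
            (prodOp (fun j => if j ∈ suppUnion (ρ.filter (fun r => !p r)) then B j else 1)))
        * rlistOp (ρ.filter p) := by
  have hS := rlistValid_filter hρ (fun r => !p r)
  have hB : prodOp B
      = prodOp (fun j => if j ∈ suppUnion (ρ.filter (fun r => !p r)) then 1 else B j)
        * prodOp (fun j => if j ∈ suppUnion (ρ.filter (fun r => !p r)) then B j else 1) := by
    rw [prodOp_mul]
    congr 1
    funext j
    by_cases hj : j ∈ suppUnion (ρ.filter (fun r => !p r))
    · simp [hj]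
    · simp [hj]
  have hfix : conjBy (ρ.filter (fun r => !p r))
      (prodOp (fun j => if j ∈ suppUnion (ρ.filter (fun r => !p r)) then 1 else B j))
      = prodOp (fun j => if j ∈ suppUnion (ρ.filter (fun r => !p r)) then 1 else B j) := by
    refine conj_fix _ hS.1 _ ?_
    intro r hr j hj
    have : j ∈ suppUnion (ρ.filter (fun r => !p r)) := (mem_suppUnion _ _).2 ⟨r, hr, hj⟩
    simp [this]
  have h1 : conjBy ρ (prodOp B)
      = (rlistOp (ρ.filter p))ᴴ * conjBy (ρ.filter (fun r => !p r)) (prodOp B)
        * rlistOp (ρ.filter p) := by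
    unfold conjBy
    rw [rlistOp_split ρ hρ p, Matrix.conjTranspose_mul]
    simp only [Matrix.mul_assoc]
  rw [h1]
  conv_lhs => rw [hB]
  rw [conjBy_mul _ hS.1, hfix]

end Vale.Agent.Lib.P368
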