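import Vale.Agent.Lib.P368.D4.Level2
import Vale.Agent.Lib.P368.D4.Split

/-! # Product projectors below two layers -/

namespace Vale.Agent.Lib.P368

open Matrix Finset
open scoped Matrix.Norms.L2Operator

set_option linter.unusedSectionVars false

variable {ι : Type} [Fintype ι] [DecidableEq ι]

/-- A layer `ρS` all of whose gates act on at most `s` qubits, above the layer `ρ₂`; `B` is trivial
outside the supports of the gates of `ρS`.

Plan: `layer_lemma` with the gauge `costGauge.comap ρ₂`, the layer `ρS`,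
`G = ρS.toFinset.filter (fun r => r.1.Nonempty)` (pairwise disjoint nonempty supports, so
`|G| ≤ card ι`, as at the end of `core3_supp`), `b = 9 ^ (s + 1)`, `m = max 1 (card ι)`,
`k = (Nat.sqrt (card ι) + 1) * L`.  Hypothesis `H`: the restricted operator is supported in
`W = T.biUnion (·.1)`, `|W| ≤ s * |T|`; use `seq_gauge` with this `W`, `c₀ = 9 ^ (s * |T|)`
(`level2_exact` and `Cost.mono`).  Then `4 * 9 ^ (s + 1) + 3 ≤ 9 ^ (s + 2)`, `growth_two`, and for
the output `Z₃` of the layer lemma take `Z = conjBy ρ₂ Z₃` (`conjBy_sub`, `opn_conjBy_le`). -/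
theorem small_apx (ρ₂ : List (Finset ι × (ι → M2))) (hρ₂ : rlistValid ρ₂)
    (ρS : List (Finset ι × (ι → M2))) (hρS : rlistValid ρS) (s : ℕ)
    (hs : ∀ r ∈ ρS, r.1.card ≤ s) (B : ι → M2) (hB : SiteP B)
    (hBS : ∀ j, j ∉ suppUnion ρS → B j = 1) (L : ℕ) :
    Apx ρ₂ (1 + 2 / 2 ^ L) (9 ^ ((s + 2) * ((Nat.sqrt (Fintype.card ι) + 1) * L)))
      (conjBy ρS (prodOp B)) := by
  classical
  set G : Finset (Finset ι × (ι → M2)) := ρS.toFinset.filter (fun r => r.1.Nonempty) with hG
  have hGρ : ∀ r ∈ G, r ∈ ρS := fun r hr => List.mem_toFinset.1 (Finset.mem_filter.1 hr).1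
  have hmemG : ∀ r ∈ ρS, ∀ j ∈ r.1, r ∈ G := fun r hr j hj =>
    Finset.mem_filter.2 ⟨List.mem_toFinset.2 hr, ⟨j, hj⟩⟩
  have hGB : ∀ r ∈ ρS, r ∉ G → ∀ j ∈ r.1, B j = 1 := by
    intro r hr hrG j hj
    exact absurd (hmemG r hr j hj) hrG
  have hsymm : Std.Symm (fun a b : Finset ι × (ι → M2) => Disjoint a.1 b.1) :=
    ⟨fun _ _ hab => hab.symm⟩
  have hcard : (G.card : ℝ) ≤ max 1 (Fintype.card ι : ℝ) := by
    have hdis : (G : Set (Finset ι × (ι → M2))).PairwiseDisjoint (fun r => r.1) := by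
      intro r hr s' hs' hne
      exact hρS.2.forall (hGρ r hr) (hGρ s' hs') hne
    have h1 : G.card ≤ (G.biUnion (fun r => r.1)).card := by
      rw [Finset.card_biUnion hdis]
      calc G.card = ∑ _r ∈ G, 1 := by simp
        _ ≤ ∑ r ∈ G, r.1.card :=
            Finset.sum_le_sum fun r hr => Finset.card_pos.2 (Finset.mem_filter.1 hr).2
    have h2 : (G.biUnion (fun r => r.1)).card ≤ Fintype.card ι := Finset.card_le_univ _
    have : (G.card : ℝ) ≤ (Fintype.card ι : ℝ) := by exact_mod_cast h1.trans h2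
    exact this.trans (le_max_right _ _)
  have hb : (1 : ℝ) ≤ 9 ^ (s + 1) := one_le_pow₀ (by norm_num)
  have H : ∀ T ⊆ G, ((costGauge (ι := ι)).comap ρ₂).P (((9 : ℝ) ^ (s + 1)) ^ T.card)
      (conjBy ρS (prodOp (fun j => if j ∈ monoSites G T then B j else 1))) := by
    intro T hT
    have hB' : Site1 (fun j => if j ∈ monoSites G T then B j else 1) := by
      intro j
      by_cases hj : j ∈ monoSites G T
      · have e : (if j ∈ monoSites G T then B j else 1) = B j := if_pos hj
        show (if j ∈ monoSites G T then B j else 1) = 1 ∨ K1 (if j ∈ monoSites G T then B j else 1)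
        rw [e]
        exact hB.site1 j
      · left
        exact if_neg hj
    set W : Finset ι := T.biUnion (fun r => r.1) with hW
    have hWcard : W.card ≤ s * T.card := by
      calc W.card ≤ ∑ r ∈ T, r.1.card := Finset.card_biUnion_le
        _ ≤ ∑ _r ∈ T, s := Finset.sum_le_sum fun r hr => hs r (hGρ r (hT hr))
        _ = s * T.card := by rw [Finset.sum_const, smul_eq_mul, mul_comm]
    have h := seq_gauge ((costGauge (ι := ι)).comap ρ₂) W (9 ^ (s * T.card)) (by positivity)
      (fun B₀ hB₀ hW₀ => Cost.mono (level2_exact ρ₂ hρ₂ B₀ hB₀ W hW₀)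
        (pow_le_pow_right₀ (by norm_num) hWcard)) ρS hρS
      (fun j => if j ∈ monoSites G T then B j else 1) hB' ?_ T
      (fun r hr => Finset.subset_biUnion_of_mem (fun r => r.1) hr) ?_
    · have e : ((9 : ℝ) ^ (s + 1)) ^ T.card = 9 ^ T.card * 9 ^ (s * T.card) := by
        rw [← pow_mul, ← pow_add]
        congr 1
        ring
      rw [e]
      exact h
    · intro j hjW
      by_cases hjm : j ∈ monoSites G T
      · simp only [if_pos hjm]
        rcases Finset.mem_union.1 hjm with h1 | h1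
        · apply hBS
          intro hmem
          obtain ⟨r, hr, hjr⟩ := (mem_suppUnion ρS j).1 hmem
          exact (Finset.mem_filter.1 h1).2 r (hmemG r hr j hjr) hjr
        · exact absurd h1 hjW
      · simp only [if_neg hjm]
    · intro r hr hrT j hj
      have hrG : r ∈ G := hmemG r hr j hj
      have hjn : j ∉ monoSites G T := by
        intro hmem
        rcases Finset.mem_union.1 hmem with h1 | h1
        · exact (Finset.mem_filter.1 h1).2 r hrG hj
        · obtain ⟨r', hr', hjr'⟩ := Finset.mem_biUnion.1 h1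
          have hne : r ≠ r' := fun e => hrT (e ▸ hr')
          have hd : Disjoint r.1 r'.1 := hρS.2.forall hr (hGρ r' (hT hr')) hne
          exact Finset.disjoint_left.1 hd hj hjr'
      simp only [if_neg hjn]
  obtain ⟨Z, hZ1, hZ2⟩ := layer_lemma ((costGauge (ι := ι)).comap ρ₂) ρS hρS B hB G hGρ hGB
    (9 ^ (s + 1)) hb H (max 1 (Fintype.card ι : ℝ)) (le_max_left _ _) hcard
    ((Nat.sqrt (Fintype.card ι) + 1) * L)
  refine ⟨conjBy ρ₂ Z, ?_, ?_⟩
  · have hg := growth_two (Fintype.card ι) L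
    have h2 : (0 : ℝ) < 2 ^ L := by positivity
    have h3 : 2 / (1 + Real.sqrt (2 / max 1 (Fintype.card ι : ℝ)))
          ^ ((Nat.sqrt (Fintype.card ι) + 1) * L)
        ≤ 2 / (2 : ℝ) ^ L := div_le_div_of_nonneg_left (by norm_num) h2 hg
    rw [← conjBy_sub]
    have h4 := opn_conjBy_le ρ₂ hρ₂.1 (conjBy ρS (prodOp B) - Z)
    linarith
  · have hZ3 : Cost ((4 * 9 ^ (s + 1) + 3) ^ ((Nat.sqrt (Fintype.card ι) + 1) * L))
        (conjBy ρ₂ Z) := hZ2
    refine Cost.mono hZ3 ?_
    rw [pow_mul (9 : ℝ) (s + 2)]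
    apply pow_le_pow_left₀ (by positivity)
    have e : (9 : ℝ) ^ (s + 2) = 9 ^ (s + 1) * 9 := pow_succ (9 : ℝ) (s + 1)
    rw [e]
    linarith

end Vale.Agent.Lib.P368
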