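import Vale.Agent.Lib.P368.D4.Level3
import Vale.Agent.Lib.P368.D4.Large

/-! # Product projectors below two layers: assembly -/

namespace Vale.Agent.Lib.P368

open Matrix Finset
open scoped Matrix.Norms.L2Operator

set_option linter.unusedSectionVars false

variable {ι : Type} [Fintype ι] [DecidableEq ι]

/-- the total exponent (base `9`) of the cost at level three -/
def expo3 (ι : Type) [Fintype ι] (t L E : ℕ) : ℕ :=
  4 * E + (t * t + 4) * ((Nat.sqrt (Fintype.card ι) + 1) * L)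

theorem pow39_le (j : ℕ) : (39 : ℝ) ^ j ≤ 9 ^ (2 * j) := by
  rw [pow_mul]
  exact pow_le_pow_left₀ (by norm_num) (by norm_num) j

theorem prod_map_pow (l : List (Finset ι × (ι → M2))) (f : Finset ι × (ι → M2) → ℕ) :
    (l.map (fun r => (39 : ℝ) ^ f r)).prod = 39 ^ (l.map f).sum := by
  induction l with
  | nil => simp
  | cons r l ih => simp [pow_add, ih]

/-- a product of one-site projectors below the layers `ρ₃` and `ρ₂` -/
theorem level3_apx (ρ₂ ρ₃ : List (Finset ι × (ι → M2))) (hρ₂ : rlistValid ρ₂)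
    (hρ₃ : rlistValid ρ₃) (B : ι → M2) (hB : SiteP B) (t L : ℕ) (ht : 1 ≤ t) :
    ∃ K E : ℕ, K ≤ Fintype.card ι ∧ t * E ≤ (2 * L + 1) * Fintype.card ι ∧
      Apx ρ₂ ((1 + 4 / 2 ^ L) ^ (2 * K + 2)) (9 ^ expo3 ι t L E) (conjBy ρ₃ (prodOp B)) := by
  classical
  set p : Finset ι × (ι → M2) → Bool := fun r => decide (t * t < r.1.card) with hp
  set ρL := ρ₃.filter p with hρL
  set ρS := ρ₃.filter (fun r => !p r) with hρS
  have vL : rlistValid ρL := rlistValid_filter hρ₃ p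
  have vS : rlistValid ρS := rlistValid_filter hρ₃ _
  have hbig : ∀ r ∈ ρL, t * t < r.1.card := by
    intro r hr
    have := (List.mem_filter.1 hr).2
    simpa [hp] using this
  have hsmall : ∀ r ∈ ρS, r.1.card ≤ t * t := by
    intro r hr
    have := (List.mem_filter.1 hr).2
    simpa [hp] using this
  obtain ⟨hK, hE⟩ := large_count ρL vL t ht hbig L
  refine ⟨ρL.length, (ρL.map (gateExp L)).sum, hK, hE, ?_⟩
  set η : ℝ := 4 / 2 ^ L with hη
  have hη0 : 0 ≤ η := by positivity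
  set BF : ι → M2 := fun j => if j ∈ suppUnion ρS then 1 else B j with hBF
  set BS : ι → M2 := fun j => if j ∈ suppUnion ρS then B j else 1 with hBS
  have sF : SiteP BF := by
    intro j
    by_cases hj : j ∈ suppUnion ρS
    · simp only [hBF, if_pos hj]; exact Or.inl trivial
    · simp only [hBF, if_neg hj]; exact hB j
  have sS : SiteP BS := by
    intro j
    by_cases hj : j ∈ suppUnion ρS
    · simp only [hBS, if_pos hj]; exact hB j
    · simp only [hBS, if_neg hj]; exact Or.inl trivial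
  rw [conjBy_factor ρ₃ hρ₃ p B]
  -- the pieces
  have aL := Apx.rlist hρ₂.1 (1 + η) (by linarith) (fun r => (39 : ℝ) ^ gateExp L r) ρL vL.1
    (fun r hr => refl_apx ρ₂ hρ₂ r (vL.1 r hr) L)
  have aL' := Apx.rlist_adj hρ₂.1 (1 + η) (by linarith) (fun r => (39 : ℝ) ^ gateExp L r) ρL vL.1
    (fun r hr => refl_apx ρ₂ hρ₂ r (vL.1 r hr) L)
  rw [prod_map_pow] at aL aL'
  have aF := level2_apx ρ₂ hρ₂ BF sF Finset.univ (fun j hj => absurd (Finset.mem_univ j) hj) L
  have aS := small_apx ρ₂ hρ₂ ρS vS (t * t) hsmall BS sS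
    (fun j hj => by simp only [hBS, if_neg hj]) L
  rw [Finset.card_univ] at aF
  -- norms
  have nL : ‖rlistOp ρL‖ ≤ 1 := opn_rlistOp_le ρL vL.1
  have nL' : ‖(rlistOp ρL)ᴴ‖ ≤ 1 := by
    rw [Matrix.l2_opNorm_conjTranspose]; exact nL
  have nF : ‖prodOp BF‖ ≤ 1 := opn_prodOp_siteP_le sF
  have nS : ‖conjBy ρS (prodOp BS)‖ ≤ 1 :=
    (opn_conjBy_le ρS vS.1 _).trans (opn_prodOp_siteP_le sS)
  have nFS : ‖prodOp BF * conjBy ρS (prodOp BS)‖ ≤ 1 :=
    (norm_mul_le _ _).trans (mul_le_one₀ nF (norm_nonneg _) nS)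
  have nLFS : ‖(rlistOp ρL)ᴴ * (prodOp BF * conjBy ρS (prodOp BS))‖ ≤ 1 :=
    (norm_mul_le _ _).trans (mul_le_one₀ nL' (norm_nonneg _) nFS)
  have a1 := Apx.mul hρ₂.1 nF nS aF aS
  have a2 := Apx.mul hρ₂.1 nL' nFS aL' a1
  have a3 := Apx.mul hρ₂.1 nLFS nL a2 aL
  refine a3.mono ?_ ?_
  · -- errors
    have h2 : (1 : ℝ) + 2 / 2 ^ L ≤ 1 + η := by
      have : (2 : ℝ) / 2 ^ L ≤ 4 / 2 ^ L := by gcongr; norm_num
      linarith
    have h1 : (0 : ℝ) ≤ 1 + 2 / 2 ^ L := by positivity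
    have hpow : (0 : ℝ) ≤ (1 + η) ^ ρL.length := by positivity
    calc (1 + η) ^ ρL.length * ((1 + 2 / 2 ^ L) * (1 + 2 / 2 ^ L)) * (1 + η) ^ ρL.length
        ≤ (1 + η) ^ ρL.length * ((1 + η) * (1 + η)) * (1 + η) ^ ρL.length := by
          gcongr
      _ = (1 + η) ^ (2 * ρL.length + 2) := by ring
  · -- costs
    set E := (ρL.map (gateExp L)).sum with hEdef
    set q := (Nat.sqrt (Fintype.card ι) + 1) * L with hq
    have c1 := pow39_le E
    have c2 := pow39_le q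
    have p1 : (0 : ℝ) ≤ 39 ^ E := by positivity
    have p2 : (0 : ℝ) ≤ 39 ^ q := by positivity
    have p3 : (0 : ℝ) ≤ 9 ^ ((t * t + 2) * q) := by positivity
    calc (39 : ℝ) ^ E * (39 ^ q * 9 ^ ((t * t + 2) * q)) * 39 ^ E
        ≤ 9 ^ (2 * E) * (9 ^ (2 * q) * 9 ^ ((t * t + 2) * q)) * 9 ^ (2 * E) := by
          gcongr
      _ = 9 ^ expo3 ι t L E := by
          unfold expo3
          rw [← pow_add, ← pow_add, ← pow_add]
          congr 1
          ring

end Vale.Agent.Lib.P368
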