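import Vale.Agent.Lib.P368.D3.Core3

/-! # The operator norm of operators on the qubits: basic facts

Throughout, the norm of an operator is the `l2` operator norm of Mathlib
(`Matrix.Norms.L2Operator`): a normed ring and a C-star ring
(`Matrix.l2_opNorm_conjTranspose_mul_self`, `Matrix.l2_opNorm_conjTranspose`,
`Matrix.l2_opNorm_mulVec`, `norm_mul_le`, `norm_smul`, `norm_one`). -/

namespace Vale.Agent.Lib.P368

open Matrix Finset
open scoped Matrix.Norms.L2Operator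

set_option linter.unusedSectionVars false

variable {ι : Type} [Fintype ι] [DecidableEq ι]

theorem opn_one_le : ‖(1 : Op ι)‖ ≤ 1 := by
  have h : ‖(1 : Op ι)ᴴ * (1 : Op ι)‖ = ‖(1 : Op ι)‖ * ‖(1 : Op ι)‖ :=
    Matrix.l2_opNorm_conjTranspose_mul_self _
  rw [Matrix.conjTranspose_one, Matrix.one_mul] at h
  have h0 := norm_nonneg (1 : Op ι)
  nlinarith

/-- `‖X‖ ^ 2 = ‖Xᴴ * X‖ = ‖1‖ = 1` -/
theorem opn_unitary_le {X : Op ι} (h : Xᴴ * X = 1) : ‖X‖ ≤ 1 := by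
  have h1 : ‖Xᴴ * X‖ = ‖X‖ * ‖X‖ := Matrix.l2_opNorm_conjTranspose_mul_self _
  rw [h] at h1
  have h2 := opn_one_le (ι := ι)
  have h0 := norm_nonneg X
  nlinarith

/-- `‖P‖ ^ 2 = ‖Pᴴ * P‖ = ‖P‖` -/
theorem opn_proj_le {P : Op ι} (h1 : Pᴴ = P) (h2 : P * P = P) : ‖P‖ ≤ 1 := by
  have h : ‖Pᴴ * P‖ = ‖P‖ * ‖P‖ := Matrix.l2_opNorm_conjTranspose_mul_self _
  rw [h1, h2] at h
  have h0 := norm_nonneg P
  by_contra hc
  push Not at hc
  nlinarith

/-- entries are bounded by the operator norm (`Matrix.l2_opNorm_mulVec` with a basis vector) -/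
theorem opn_entry_le (Z : Op ι) (z : ι → Bool) : ‖Z z z‖ ≤ ‖Z‖ := by
  have h := Matrix.l2_opNorm_mulVec Z (EuclideanSpace.single z (1 : ℂ))
  rw [EuclideanSpace.norm_single, norm_one, mul_one] at h
  refine le_trans ?_ h
  have h2 := PiLp.norm_apply_le (p := 2)
    ((EuclideanSpace.equiv (ι → Bool) ℂ).symm (Z *ᵥ (EuclideanSpace.single z (1 : ℂ)).ofLp)) z
  refine le_trans (le_of_eq ?_) h2
  congr 1
  simp

/-- `sum_abs_coef` and `opn_entry_le` -/
theorem norm_Phi_le_opn (inp : ι → Bool) (Z : Op ι) : ‖Phi inp Z‖ ≤ ‖Z‖ := by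
  unfold Phi
  calc ‖∑ z, (coef inp z : ℂ) * Z z z‖ ≤ ∑ z, ‖(coef inp z : ℂ) * Z z z‖ := norm_sum_le _ _
    _ ≤ ∑ z, |coef inp z| * ‖Z‖ := by
        apply Finset.sum_le_sum
        intro z _
        rw [norm_mul, Complex.norm_real, Real.norm_eq_abs]
        exact mul_le_mul_of_nonneg_left (opn_entry_le Z z) (abs_nonneg _)
    _ = ‖Z‖ := by rw [← Finset.sum_mul, sum_abs_coef, one_mul]

theorem rlistOp_mul_conjTranspose (l : List (Finset ι × (ι → M2))) (hl : ∀ r ∈ l, ReflValid r) :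
    rlistOp l * (rlistOp l)ᴴ = 1 :=
  mul_eq_one_comm.1 (rlistOp_unitary l hl)

theorem opn_rlistOp_le (l : List (Finset ι × (ι → M2))) (hl : ∀ r ∈ l, ReflValid r) :
    ‖rlistOp l‖ ≤ 1 := opn_unitary_le (rlistOp_unitary l hl)

theorem opn_conjBy_le (l : List (Finset ι × (ι → M2))) (hl : ∀ r ∈ l, ReflValid r) (Y : Op ι) :
    ‖conjBy l Y‖ ≤ ‖Y‖ := by
  unfold conjBy
  have h1 := opn_rlistOp_le l hl
  have h2 : ‖(rlistOp l)ᴴ‖ ≤ 1 := by rw [Matrix.l2_opNorm_conjTranspose]; exact h1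
  calc ‖(rlistOp l)ᴴ * Y * rlistOp l‖ ≤ ‖(rlistOp l)ᴴ * Y‖ * ‖rlistOp l‖ := norm_mul_le _ _
    _ ≤ (‖(rlistOp l)ᴴ‖ * ‖Y‖) * ‖rlistOp l‖ := by gcongr; exact norm_mul_le _ _
    _ ≤ (1 * ‖Y‖) * 1 := by gcongr
    _ = ‖Y‖ := by ring

theorem conjBy_mul (l : List (Finset ι × (ι → M2))) (hl : ∀ r ∈ l, ReflValid r) (Y Y' : Op ι) :
    conjBy l (Y * Y') = conjBy l Y * conjBy l Y' := by
  unfold conjBy
  have h := rlistOp_mul_conjTranspose l hl
  calc (rlistOp l)ᴴ * (Y * Y') * rlistOp l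
      = (rlistOp l)ᴴ * Y * 1 * Y' * rlistOp l := by simp only [Matrix.mul_assoc, Matrix.one_mul]
    _ = (rlistOp l)ᴴ * Y * (rlistOp l * (rlistOp l)ᴴ) * Y' * rlistOp l := by rw [h]
    _ = _ := by simp only [Matrix.mul_assoc]

theorem conjBy_one (l : List (Finset ι × (ι → M2))) (hl : ∀ r ∈ l, ReflValid r) :
    conjBy l (1 : Op ι) = 1 := by
  unfold conjBy
  rw [Matrix.mul_one]
  exact rlistOp_unitary l hl

theorem opn_reflOp_le {r : Finset ι × (ι → M2)} (hr : ReflValid r) : ‖reflOp r‖ ≤ 1 := by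
  apply opn_unitary_le
  rw [reflOp_herm hr]
  exact reflOp_mul_self hr

/-- a product of one-site projectors is a Hermitian idempotent -/
theorem opn_prodOp_siteP_le {B : ι → M2} (hB : SiteP B) : ‖prodOp B‖ ≤ 1 := by
  apply opn_proj_le
  · rw [prodOp_conjTranspose]
    congr 1
    funext j
    exact hB.herm j
  · rw [prodOp_mul]
    congr 1
    funext j
    exact hB.idem j

end Vale.Agent.Lib.P368
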