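import Vale.Agent.Lib.P368.D4.OpNorm

/-! # Functions of commuting one-site tests: the operator norm is the sup norm -/

namespace Vale.Agent.Lib.P368

open Matrix Finset
open scoped Matrix.Norms.L2Operator

set_option linter.unusedSectionVars false

variable {ι : Type} [Fintype ι] [DecidableEq ι]

/-- a product operator with a vanishing site vanishes -/
theorem prodOp_eq_zero_of_site {A : ι → M2} (j : ι) (h : A j = 0) : prodOp A = 0 := by
  ext x y
  rw [prodOp_apply]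
  refine Finset.prod_eq_zero (Finset.mem_univ j) ?_
  rw [h]
  rfl

/-- different patterns are orthogonal (at a site where they differ, `B j * (1 - B j) = 0`) -/
theorem patOp_mul_ne {B : ι → M2} (hB : SiteP B) {σ τ : ι → Bool} (h : σ ≠ τ) :
    patOp B σ * patOp B τ = 0 := by
  obtain ⟨j, hj⟩ := Function.ne_iff.mp h
  unfold patOp
  rw [prodOp_mul]
  refine prodOp_eq_zero_of_site j ?_
  have hi := hB.idem j
  cases hs : σ j <;> cases ht : τ j
  · exact absurd (hs.trans ht.symm) hj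
  · simp only [Bool.false_eq_true, if_false, if_true]
    rw [Matrix.sub_mul, Matrix.one_mul, hi, sub_self]
  · simp only [Bool.false_eq_true, if_false, if_true]
    rw [Matrix.mul_sub, Matrix.mul_one, hi, sub_self]
  · exact absurd (hs.trans ht.symm) hj

/-- the product formula for functions of the patterns -/
theorem sum_patOp_conj_mul {B : ι → M2} (hB : SiteP B) (a b : (ι → Bool) → ℂ) :
    (∑ σ : ι → Bool, a σ • patOp B σ)ᴴ * (∑ σ : ι → Bool, b σ • patOp B σ)
      = ∑ σ : ι → Bool, (star (a σ) * b σ) • patOp B σ := by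
  rw [Matrix.conjTranspose_sum, Finset.sum_mul_sum]
  refine Finset.sum_congr rfl fun σ _ => ?_
  rw [Finset.sum_eq_single σ]
  · rw [Matrix.conjTranspose_smul, patOp_herm hB, Matrix.smul_mul, Matrix.mul_smul,
      patOp_idem hB, smul_smul]
  · intro τ _ hτ
    rw [Matrix.conjTranspose_smul, patOp_herm hB, Matrix.smul_mul, Matrix.mul_smul,
      patOp_mul_ne hB (Ne.symm hτ), smul_zero, smul_zero]
  · intro hσ
    exact absurd (Finset.mem_univ σ) hσ

/-- an elementary fact on real numbers used in the power trick -/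
theorem le_of_pow_two_pow_le {x C K : ℝ} (hC : 0 ≤ C)
    (h : ∀ j : ℕ, x ^ (2 ^ (j + 1)) ≤ K * C ^ (2 ^ (j + 1))) : x ≤ C := by
  by_contra hlt
  have hlt' : C < x := not_le.mp hlt
  rcases hC.eq_or_lt with h0 | hpos
  · have h1 := h 0
    rw [← h0] at h1
    have hx : 0 < x := by rw [h0]; exact hlt'
    have h2 : 0 < x ^ (2 ^ (0 + 1)) := pow_pos hx _
    have h3 : (0 : ℝ) ^ (2 ^ (0 + 1)) = 0 := by norm_num
    rw [h3, mul_zero] at h1
    exact absurd h1 (not_le.mpr h2)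
  · have hr : 1 < x / C := (one_lt_div hpos).2 hlt'
    have hb : ∀ j : ℕ, (x / C) ^ (2 ^ (j + 1)) ≤ K := by
      intro j
      rw [div_pow, div_le_iff₀ (pow_pos hpos _)]
      exact h j
    obtain ⟨n, hn⟩ := pow_unbounded_of_one_lt K hr
    have hn2 : n ≤ 2 ^ (n + 1) :=
      (Nat.lt_two_pow_self).le.trans (Nat.pow_le_pow_right (by norm_num) (Nat.le_succ n))
    have h4 : (x / C) ^ n ≤ (x / C) ^ (2 ^ (n + 1)) := pow_le_pow_right₀ hr.le hn2
    exact absurd (h4.trans (hb n)) (not_le.mpr hn)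

/-- The operator norm of `A = ∑ σ, c σ • patOp B σ` is at most `sup |c σ|` (the patterns are
orthogonal Hermitian idempotents, `patOp_herm`, `patOp_idem`, `patOp_mul_ne`, and sum to one,
`sum_patOp`).

Two possible plans.  (a) `C ^ 2 • 1 - Aᴴ * A = Dᴴ * D` with
`D = ∑ σ, sqrt (C ^ 2 - |c σ| ^ 2) • patOp B σ`, so `‖A v‖ ≤ C ‖v‖` for all vectors.
(b) powers: with `A_j = ∑ σ, (|c σ| ^ (2 ^ j) : ℂ) • patOp B σ` one has `A_jᴴ * A_j = A_(j+1)`, so
`‖A‖ ^ (2 ^ j) = ‖A_j‖ ≤ card * C ^ (2 ^ j)` (triangle inequality, `opn_proj_le`) for all `j`,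
which forces `‖A‖ ≤ C`. -/
theorem opn_sum_patOp_le {B : ι → M2} (hB : SiteP B) (c : (ι → Bool) → ℂ) (C : ℝ)
    (hc : ∀ σ, ‖c σ‖ ≤ C) : ‖∑ σ : ι → Bool, c σ • patOp B σ‖ ≤ C := by
  have hC : 0 ≤ C := (norm_nonneg _).trans (hc fun _ => false)
  have hpow : ∀ j : ℕ, ‖∑ σ : ι → Bool, c σ • patOp B σ‖ ^ (2 ^ (j + 1))
      = ‖∑ σ : ι → Bool, (((‖c σ‖ ^ (2 ^ (j + 1)) : ℝ)) : ℂ) • patOp B σ‖ := by
    intro j
    induction j with
    | zero =>
      rw [zero_add, pow_one, sq, ← Matrix.l2_opNorm_conjTranspose_mul_self,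
        sum_patOp_conj_mul hB]
      congr 1
      refine Finset.sum_congr rfl fun σ _ => ?_
      congr 1
      rw [Complex.star_def, Complex.conj_mul']
      push_cast
      rfl
    | succ j ih =>
      rw [pow_succ 2 (j + 1), pow_mul, ih, sq, ← Matrix.l2_opNorm_conjTranspose_mul_self,
        sum_patOp_conj_mul hB]
      congr 1
      refine Finset.sum_congr rfl fun σ _ => ?_
      congr 1
      rw [Complex.star_def, Complex.conj_ofReal, ← Complex.ofReal_mul, ← sq, ← pow_mul]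
  refine le_of_pow_two_pow_le (K := (Fintype.card (ι → Bool) : ℝ)) hC fun j => ?_
  rw [hpow j]
  calc ‖∑ σ : ι → Bool, (((‖c σ‖ ^ (2 ^ (j + 1)) : ℝ)) : ℂ) • patOp B σ‖
      ≤ ∑ σ : ι → Bool, ‖(((‖c σ‖ ^ (2 ^ (j + 1)) : ℝ)) : ℂ) • patOp B σ‖ := norm_sum_le _ _
    _ ≤ ∑ _σ : ι → Bool, C ^ (2 ^ (j + 1)) := by
        refine Finset.sum_le_sum fun σ _ => ?_
        rw [norm_smul, Complex.norm_real, Real.norm_of_nonneg (pow_nonneg (norm_nonneg _) _)]
        calc ‖c σ‖ ^ (2 ^ (j + 1)) * ‖patOp B σ‖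
            ≤ ‖c σ‖ ^ (2 ^ (j + 1)) * 1 :=
              mul_le_mul_of_nonneg_left (opn_proj_le (patOp_herm hB σ) (patOp_idem hB σ))
                (pow_nonneg (norm_nonneg _) _)
          _ = ‖c σ‖ ^ (2 ^ (j + 1)) := mul_one _
          _ ≤ C ^ (2 ^ (j + 1)) := pow_le_pow_left₀ (norm_nonneg _) (hc σ) _
    _ = (Fintype.card (ι → Bool) : ℝ) * C ^ (2 ^ (j + 1)) := by
        rw [Finset.sum_const, Finset.card_univ, nsmul_eq_mul]

/-- the same after conjugation by a list of reflections -/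
theorem opn_sum_pat_le (ρ : List (Finset ι × (ι → M2))) (hρ : ∀ r ∈ ρ, ReflValid r)
    {B : ι → M2} (hB : SiteP B) (c : (ι → Bool) → ℂ) (C : ℝ) (hc : ∀ σ, ‖c σ‖ ≤ C) :
    ‖∑ σ : ι → Bool, c σ • conjBy ρ (patOp B σ)‖ ≤ C := by
  have h1 : ∑ σ : ι → Bool, c σ • conjBy ρ (patOp B σ)
      = conjBy ρ (∑ σ : ι → Bool, c σ • patOp B σ) := by
    unfold conjBy
    rw [Finset.mul_sum, Finset.sum_mul]
    refine Finset.sum_congr rfl fun σ _ => ?_
    rw [Matrix.mul_smul, Matrix.smul_mul]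
  rw [h1]
  exact (opn_conjBy_le ρ hρ _).trans (opn_sum_patOp_le hB c C hc)

end Vale.Agent.Lib.P368
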