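import Vale.Agent.Lib.P368.D4.Level3b
import Vale.Agent.Lib.P368.Corr

/-! # Four layers of reflections -/

namespace Vale.Agent.Lib.P368

open Matrix Finset
open scoped Matrix.Norms.L2Operator

set_option linter.unusedSectionVars false

section general

variable {ι : Type} [Fintype ι] [DecidableEq ι]

/-- the exponent with the explicit bound for the large gates -/
def expo4 (ι : Type) [Fintype ι] (t L : ℕ) : ℕ :=
  expo3 ι t L (((2 * L + 1) * Fintype.card ι) / t)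

/-- uniform version of `level3_apx` -/
theorem level3_apx_unif (ρ₂ ρ₃ : List (Finset ι × (ι → M2))) (hρ₂ : rlistValid ρ₂)
    (hρ₃ : rlistValid ρ₃) (B : ι → M2) (hB : SiteP B) (t L : ℕ) (ht : 1 ≤ t) :
    Apx ρ₂ ((1 + 4 / 2 ^ L) ^ (2 * Fintype.card ι + 2)) (9 ^ expo4 ι t L)
      (conjBy ρ₃ (prodOp B)) := by
  obtain ⟨K, E, hK, hE, h⟩ := level3_apx ρ₂ ρ₃ hρ₂ hρ₃ B hB t L ht
  refine h.mono ?_ ?_
  · have : (1 : ℝ) ≤ 1 + 4 / 2 ^ L := by
      have : (0 : ℝ) ≤ 4 / 2 ^ L := by positivity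
      linarith
    exact pow_le_pow_right₀ this (by omega)
  · have hE' : E ≤ ((2 * L + 1) * Fintype.card ι) / t := by
      rw [Nat.le_div_iff_mul_le (by omega)]
      rw [mul_comm]
      exact hE
    refine pow_le_pow_right₀ (by norm_num) ?_
    unfold expo4 expo3
    omega

/-- only the gate of the last layer that contains the output qubit matters -/
theorem top4_form (o : ι) (π : M2) (l₄ : List (Finset ι × (ι → M2))) (h₄ : rlistValid l₄) :
    conjBy l₄ (prodOp (atSite o π)) = prodOp (atSite o π) ∨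
      ∃ r ∈ l₄, conjBy l₄ (prodOp (atSite o π)) = reflOp r * prodOp (atSite o π) * reflOp r := by
  induction l₄ with
  | nil => exact Or.inl (conjBy_nil _)
  | cons r l ih =>
    have hr := h₄.1 r List.mem_cons_self
    have hl : rlistValid l :=
      ⟨fun s hs => h₄.1 s (List.mem_cons_of_mem _ hs), (List.pairwise_cons.1 h₄.2).2⟩
    have hd : ∀ s ∈ l, Disjoint r.1 s.1 := (List.pairwise_cons.1 h₄.2).1
    rw [conjBy_cons hr]
    by_cases ho : o ∈ r.1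
    · right
      refine ⟨r, List.mem_cons_self, ?_⟩
      have hone : ∀ s ∈ l, ∀ j ∈ s.1, r.2 j = 1 ∧ atSite o π j = 1 := by
        intro s hs j hj
        have hjr : j ∉ r.1 := fun h => Finset.disjoint_left.1 (hd s hs) h hj
        exact ⟨hr.2 j hjr, atSite_ne o π (fun h => hjr (h ▸ ho))⟩
      have e1 : conjBy l (reflOp r) = reflOp r := by
        unfold reflOp
        rw [conjBy_sub, conjBy_one l hl.1, conjBy_smul,
          conj_fix l hl.1 _ (fun s hs j hj => (hone s hs j hj).1)]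
      have e2 : conjBy l (prodOp (atSite o π)) = prodOp (atSite o π) :=
        conj_fix l hl.1 _ (fun s hs j hj => (hone s hs j hj).2)
      rw [conjBy_mul l hl.1, conjBy_mul l hl.1, e1, e2]
    · rw [refl_commute hr (fun j hj => atSite_ne o π (fun h => ho (h ▸ hj)))]
      rcases ih hl with h | ⟨s, hs, h⟩
      · exact Or.inl h
      · exact Or.inr ⟨s, List.mem_cons_of_mem _ hs, h⟩

theorem siteP_atSite (o : ι) (π : M2) (hπ : Pr π) : SiteP (atSite o π) := by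
  intro j
  by_cases hj : j = o
  · subst hj
    rw [atSite_self]
    exact Or.inr hπ
  · exact Or.inl (atSite_ne o π hj)

/-- the observable below the layers `l₄`, `ρ₃`, `ρ₂` -/
theorem top4_apx (ρ₂ ρ₃ l₄ : List (Finset ι × (ι → M2))) (hρ₂ : rlistValid ρ₂)
    (hρ₃ : rlistValid ρ₃) (h₄ : rlistValid l₄) (o : ι) (π : M2) (hπ : Pr π) (t L : ℕ)
    (ht : 1 ≤ t) (e c : ℝ) (he : e = (1 + 4 / 2 ^ L) ^ (2 * Fintype.card ι + 2))
    (hc : c = 9 ^ expo4 ι t L) :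
    Apx ρ₂ ((2 * e - 1) * e * (2 * e - 1)) ((1 + 2 * c) * c * (1 + 2 * c))
      (conjBy ρ₃ (conjBy l₄ (prodOp (atSite o π)))) := by
  have aπ := level3_apx_unif ρ₂ ρ₃ hρ₂ hρ₃ _ (siteP_atSite o π hπ) t L ht
  rw [← he, ← hc] at aπ
  have he1 : 1 ≤ e := aπ.one_le
  have hc1 : 1 ≤ c := by
    rw [hc]
    exact one_le_pow₀ (by norm_num)
  rcases top4_form o π l₄ h₄ with h | ⟨r, hr, h⟩
  · rw [h]
    refine aπ.mono ?_ ?_
    · have h1 : 1 ≤ 2 * e - 1 := by linarith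
      have h2 : e ≤ (2 * e - 1) * e := by nlinarith
      have h3 : 0 ≤ (2 * e - 1) * e := by nlinarith
      nlinarith
    · have h1 : 1 ≤ 1 + 2 * c := by linarith
      have h2 : c ≤ (1 + 2 * c) * c := by nlinarith
      have h3 : 0 ≤ (1 + 2 * c) * c := by nlinarith
      nlinarith
  · rw [h]
    have vr := h₄.1 r hr
    have aq := level3_apx_unif ρ₂ ρ₃ hρ₂ hρ₃ r.2 vr.site t L ht
    rw [← he, ← hc] at aq
    have aR := Apx.one_sub_two hρ₂.1 aq
    have eR : conjBy ρ₃ (reflOp r) = 1 - (2 : ℂ) • conjBy ρ₃ (prodOp r.2) := by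
      unfold reflOp
      rw [conjBy_sub, conjBy_one ρ₃ hρ₃.1, conjBy_smul]
    rw [← eR] at aR
    have nR : ‖conjBy ρ₃ (reflOp r)‖ ≤ 1 :=
      (opn_conjBy_le ρ₃ hρ₃.1 _).trans (opn_reflOp_le vr)
    have nπ : ‖conjBy ρ₃ (prodOp (atSite o π))‖ ≤ 1 :=
      (opn_conjBy_le ρ₃ hρ₃.1 _).trans (opn_prodOp_siteP_le (siteP_atSite o π hπ))
    have nRπ : ‖conjBy ρ₃ (reflOp r) * conjBy ρ₃ (prodOp (atSite o π))‖ ≤ 1 :=
      (norm_mul_le _ _).trans (mul_le_one₀ nR (norm_nonneg _) nπ)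
    rw [conjBy_mul ρ₃ hρ₃.1, conjBy_mul ρ₃ hρ₃.1]
    exact Apx.mul hρ₂.1 nRπ nR (Apx.mul hρ₂.1 nR nπ aR aπ) aR

theorem heis4_bound (inp : ι → Bool) (o : ι) (b : Bool) (u : ι → M2)
    (l₄ ρ₃ ρ₂ l₁ : List (Finset ι × (ι → M2))) (hu : LocalU u) (h₄ : rlistValid l₄)
    (hρ₃ : rlistValid ρ₃) (hρ₂ : rlistValid ρ₂) (h₁ : rlistValid l₁) (t L : ℕ) (ht : 1 ≤ t)
    (e c : ℝ) (he : e = (1 + 4 / 2 ^ L) ^ (2 * Fintype.card ι + 2))
    (hc : c = 9 ^ expo4 ι t L) :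
    ‖Phi inp ((prodOp u * (rlistOp l₄ * (rlistOp ρ₃ * (rlistOp ρ₂ * rlistOp l₁))))ᴴ
      * prodOp (atSite o (ketbra (eb b) (eb b)))
      * (prodOp u * (rlistOp l₄ * (rlistOp ρ₃ * (rlistOp ρ₂ * rlistOp l₁)))))‖
      ≤ ((2 * e - 1) * e * (2 * e - 1) - 1)
        + (1 + 2 * c) * c * (1 + 2 * c) * gam ^ numInp inp := by
  have e1 : (prodOp u)ᴴ * prodOp (atSite o (ketbra (eb b) (eb b))) * prodOp u
      = prodOp (atSite o ((u o)ᴴ * ketbra (eb b) (eb b) * u o)) := by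
    rw [prodOp_conjTranspose, prodOp_mul, prodOp_mul]
    congr 1
    funext j
    by_cases hj : j = o
    · subst hj
      rw [atSite_self, atSite_self]
    · rw [atSite_ne _ _ hj, atSite_ne _ _ hj, Matrix.mul_one, hu.star_mul j]
  have e2 : (prodOp u * (rlistOp l₄ * (rlistOp ρ₃ * (rlistOp ρ₂ * rlistOp l₁))))ᴴ
      * prodOp (atSite o (ketbra (eb b) (eb b)))
      * (prodOp u * (rlistOp l₄ * (rlistOp ρ₃ * (rlistOp ρ₂ * rlistOp l₁))))
      = conjBy l₁ (conjBy ρ₂ (conjBy ρ₃ (conjBy l₄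
        (prodOp (atSite o ((u o)ᴴ * ketbra (eb b) (eb b) * u o)))))) := by
    rw [← e1]
    simp only [conjBy, Matrix.conjTranspose_mul, Matrix.mul_assoc]
  rw [e2]
  exact (top4_apx ρ₂ ρ₃ l₄ hρ₂ hρ₃ h₄ o _ ((pr_eb b).conj (hu o)) t L ht e c he hc).bound inp l₁ h₁

/-- entangling depth at most four: four layers of reflections -/
theorem circuit_nf_four (C : List (List (Gate ι))) (hC : circuitValid C)
    (hd : entanglingDepth C ≤ 4) :
    ∃ (u : ι → M2) (l₄ l₃ l₂ l₁ : List (Finset ι × (ι → M2))), LocalU u ∧ rlistValid l₄ ∧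
      rlistValid l₃ ∧ rlistValid l₂ ∧ rlistValid l₁ ∧
      circuitOp C = prodOp u * (rlistOp l₄ * (rlistOp l₃ * (rlistOp l₂ * rlistOp l₁))) := by
  obtain ⟨u, X, hu, hX, heq⟩ := circuit_nf C hC
  obtain ⟨l₄, X₃, h₄, ⟨l₃, X₂, h₃, ⟨l₂, X₁, h₂, ⟨l₁, X₀, h₁, hX₀, rfl⟩, rfl⟩, rfl⟩, rfl⟩ :=
    hX.mono hd
  have : X₀ = 1 := hX₀
  subst this
  exact ⟨u, l₄, l₃, l₂, l₁, hu, h₄, h₃, h₂, h₁, by rw [heq, Matrix.mul_one]⟩

end general

/-- the bound for circuits of entangling depth at most four, with the free integer parameters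
`t` (the square root of the size threshold) and `L` (the accuracy) -/
theorem depth_four_param {n a : ℕ} (C : List (List (Gate (Fin n ⊕ Fin a))))
    (hC : circuitValid C) (hd : entanglingDepth C ≤ 4) (o : Fin n ⊕ Fin a) (t L : ℕ)
    (ht : 1 ≤ t) (e c : ℝ) (he : e = (1 + 4 / 2 ^ L) ^ (2 * (n + a) + 2))
    (hc : c = 9 ^ expo4 (Fin n ⊕ Fin a) t L) :
    |parityCorrelation C o|
      ≤ 2 * (((2 * e - 1) * e * (2 * e - 1) - 1) + (1 + 2 * c) * c * (1 + 2 * c) * gam ^ n) := by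
  obtain ⟨u, l₄, l₃, l₂, l₁, hu, h₄, h₃, h₂, h₁, heq⟩ := circuit_nf_four C hC hd
  have hcard : Fintype.card (Fin n ⊕ Fin a) = n + a := by simp
  have he' : e = (1 + 4 / 2 ^ L) ^ (2 * Fintype.card (Fin n ⊕ Fin a) + 2) := by rw [hcard, he]
  have h := corr_eq C o
  rw [heq] at h
  have b0 := heis4_bound (fun j : Fin n ⊕ Fin a => Sum.isLeft j) o false u l₄ l₃ l₂ l₁ hu h₄ h₃ h₂
    h₁ t L ht e c he' hc
  have b1 := heis4_bound (fun j : Fin n ⊕ Fin a => Sum.isLeft j) o true u l₄ l₃ l₂ l₁ hu h₄ h₃ h₂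
    h₁ t L ht e c he' hc
  rw [numInp_sum] at b0 b1
  have : |parityCorrelation C o| = ‖((parityCorrelation C o : ℝ) : ℂ)‖ := by
    rw [Complex.norm_real, Real.norm_eq_abs]
  rw [this, h]
  refine (norm_sub_le _ _).trans ?_
  linarith

end Vale.Agent.Lib.P368
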